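import Vale.Agent.P154.Neg3.Iface
import Vale.Agent.P154.PointAssembly
import Vale.Agent.P154.GenBoundsProof
import Vale.Agent.P154.AffAssembly
import Vale.Agent.P154.Range

/-!
P154: assembly of the range `[-1/√8, 0)` for three states from the numerical bounds.
-/

namespace Vale.Agent.P154.Neg3

open Finset Real

/-- The three exponent vectors. -/
noncomputable def atom : Fin 3 → Fin 3 → ℝ :=
  ![![1 / 3, 1 / 3, 1 / 3], ![2 / 3, 1 / 6, 1 / 6], ![1 / 2, 1 / 2, 0]]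

/-- Minus the coefficient of the first atom, then the other coefficients. -/
noncomputable def coef : Fin 3 → ℝ := ![47, 34, 42]

/-- The Cauchy-Schwarz weights. -/
noncomputable def wgt : Fin 3 → ℝ := ![1, 3 / 4, 3 / 4]

/-- The three averaged defects. -/
noncomputable def tt : Fin 3 → (Fin 3 → ℝ) → ℝ := ![tA, tB1, tB2]

lemma sum_perm_apply (k : Fin 3) (h : Fin 3 → ℝ) :
    ∑ σ : Equiv.Perm (Fin 3), h (σ k) = 2 * (h 0 + h 1 + h 2) := by
  have hc : ∀ i k : Fin 3, (univ.filter fun σ : Equiv.Perm (Fin 3) => σ k = i).card = 2 := by decide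
  rw [← Finset.sum_fiberwise univ (fun σ : Equiv.Perm (Fin 3) => σ k) (fun σ => h (σ k))]
  have : ∀ i : Fin 3, ∑ σ ∈ univ.filter (fun σ : Equiv.Perm (Fin 3) => σ k = i), h (σ k) = 2 * h i :=
    fun i => by
      rw [Finset.sum_congr rfl fun σ hσ => by rw [(Finset.mem_filter.1 hσ).2], Finset.sum_const, hc]
      simp
  rw [Finset.sum_congr rfl fun i _ => this i, Fin.sum_univ_three]
  ring

lemma rpow_split {x : ℝ} (hx : 0 ≤ x) :
    x ^ (1 / 3 : ℝ) = (√x ^ (1 / 3 : ℝ)) ^ 2 ∧ x ^ (1 / 6 : ℝ) = √x ^ (1 / 3 : ℝ) ∧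
      x ^ (2 / 3 : ℝ) = √x * √x ^ (1 / 3 : ℝ) ∧ x ^ (1 / 2 : ℝ) = √x := by
  have h6 : √x ^ (1 / 3 : ℝ) = x ^ (1 / 6 : ℝ) := by
    rw [sqrt_eq_rpow, ← rpow_mul hx]; norm_num
  refine ⟨?_, h6.symm, ?_, (sqrt_eq_rpow x).symm⟩
  · rw [h6, ← rpow_natCast, ← rpow_mul hx]; norm_num
  · rw [h6, sqrt_eq_rpow, ← rpow_add' hx (by norm_num)]; norm_num

/-- The permutation averages of the three affinities. -/
lemma pav_aff {u : Fin 3 → ℝ} (hu : Dev u) (j : Fin 3) :
    PointAssembly.pav (aff (atom j)) u = 1 - tt j u := by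
  have h3 : u 0 + u 1 + u 2 = 0 := by
    have := hu.1; rwa [Fin.sum_univ_three] at this
  have hn : ∀ i, 0 ≤ 1 + u i := fun i => by linarith [hu.2 i]
  set z : Fin 3 → ℝ := fun i => √(1 + u i) with hz
  have hz0 : ∀ i, 0 ≤ z i := fun i => sqrt_nonneg _
  have hz2 : z 0 ^ 2 + z 1 ^ 2 + z 2 ^ 2 = 3 := by
    simp only [z, sq_sqrt (hn _)]; linarith
  have hw : wr u = z 0 ^ (1 / 3 : ℝ) * z 1 ^ (1 / 3 : ℝ) * z 2 ^ (1 / 3 : ℝ) := by
    rw [wr, mul_rpow (mul_nonneg (hz0 0) (hz0 1)) (hz0 2), mul_rpow (hz0 0) (hz0 1)]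
  have hperm : ∀ σ : Equiv.Perm (Fin 3),
      z (σ 0) ^ (1 / 3 : ℝ) * z (σ 1) ^ (1 / 3 : ℝ) * z (σ 2) ^ (1 / 3 : ℝ) = wr u := fun σ => by
    rw [hw]
    have := Equiv.prod_comp σ fun i => z i ^ (1 / 3 : ℝ)
    rwa [Fin.prod_univ_three, Fin.prod_univ_three] at this
  have hcard : (Fintype.card (Equiv.Perm (Fin 3)) : ℝ) = 6 := by
    simp [Fintype.card_perm]
    norm_num [Nat.factorial]
  have hpair : ∀ σ : Equiv.Perm (Fin 3), z (σ 0) * z (σ 1) =
      ((z 0 + z 1 + z 2 - z (σ 2)) ^ 2 - (3 - z (σ 2) ^ 2)) / 2 := fun σ => by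
    have h1 := Equiv.sum_comp σ z
    have h2 := Equiv.sum_comp σ fun i => z i ^ 2
    rw [Fin.sum_univ_three, Fin.sum_univ_three] at h1 h2
    have e1 : z 0 + z 1 + z 2 - z (σ 2) = z (σ 0) + z (σ 1) := by linarith
    have e2 : 3 - z (σ 2) ^ 2 = z (σ 0) ^ 2 + z (σ 1) ^ 2 := by linarith
    rw [e1, e2]
    ring
  simp only [PointAssembly.pav, hcard, aff, Function.comp_apply, Fin.prod_univ_three]
  rw [div_eq_iff (by norm_num : (6 : ℝ) ≠ 0)]
  have e0 := fun σ : Equiv.Perm (Fin 3) => rpow_split (hn (σ 0))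
  have e1 := fun σ : Equiv.Perm (Fin 3) => rpow_split (hn (σ 1))
  have e2 := fun σ : Equiv.Perm (Fin 3) => rpow_split (hn (σ 2))
  fin_cases j
  · simp only [atom, tt, tA, Fin.zero_eta, Matrix.cons_val_zero, Matrix.cons_val_one,
      Matrix.cons_val, (e0 _).1, (e1 _).1, (e2 _).1]
    have : ∀ σ : Equiv.Perm (Fin 3), (√(1 + u (σ 0)) ^ (1 / 3 : ℝ)) ^ 2 *
        (√(1 + u (σ 1)) ^ (1 / 3 : ℝ)) ^ 2 * (√(1 + u (σ 2)) ^ (1 / 3 : ℝ)) ^ 2 = wr u ^ 2 :=
      fun σ => by rw [← hperm σ, mul_pow, mul_pow]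
    simp only [this, sum_const, card_univ, nsmul_eq_mul, hcard]
    ring
  · simp only [atom, tt, tB1, Fin.mk_one, Matrix.cons_val_zero, Matrix.cons_val_one,
      Matrix.cons_val, (e0 _).2.2.1, (e1 _).2.1, (e2 _).2.1]
    have : ∀ σ : Equiv.Perm (Fin 3), √(1 + u (σ 0)) * √(1 + u (σ 0)) ^ (1 / 3 : ℝ) *
        √(1 + u (σ 1)) ^ (1 / 3 : ℝ) * √(1 + u (σ 2)) ^ (1 / 3 : ℝ) = z (σ 0) * wr u :=
      fun σ => by rw [← hperm σ]; ring
    simp only [this, ← sum_mul, sum_perm_apply 0 z, sig]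
    simp only [z]
    ring
  · simp only [atom, tt, tB2, Fin.reduceFinMk, Matrix.cons_val_zero, Matrix.cons_val_one,
      Matrix.cons_val, (e0 _).2.2.2, (e1 _).2.2.2, rpow_zero, mul_one]
    rw [Finset.sum_congr rfl fun σ _ => hpair σ,
      sum_perm_apply 2 fun i => ((z 0 + z 1 + z 2 - z i) ^ 2 - (3 - z i ^ 2)) / 2]
    have hs : sig u = (z 0 + z 1 + z 2) / 3 := rfl
    rw [hs]
    linear_combination (2 : ℝ) * hz2

lemma S_eq_ss (u : Fin 3 → ℝ) : S u = ss u := by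
  rw [S, ss, Fin.sum_univ_three]; norm_num

lemma C_sq_le {u : Fin 3 → ℝ} (hu : Dev u) :
    C u ^ 2 ≤ S u ^ 3 ∧ (3 * S u - 1) / 2 ≤ C u := by
  have h3 : u 0 + u 1 + u 2 = 0 := by
    have := hu.1; rwa [Fin.sum_univ_three] at this
  have hp : 0 ≤ (1 + u 0) * (1 + u 1) * (1 + u 2) :=
    mul_nonneg (mul_nonneg (by linarith [hu.2 0]) (by linarith [hu.2 1])) (by linarith [hu.2 2])
  have e : u 2 = -u 0 - u 1 := by linarith
  rw [e] at hp
  constructor
  · rw [C, S, e]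
    nlinarith [sq_nonneg ((u 0 - u 1) * (2 * u 0 + u 1) * (u 0 + 2 * u 1))]
  · rw [C, S, e]
    nlinarith

/-- The inequalities at one point. -/
lemma point_core (hU : BoundU) (hV : BoundV) (hF : BoundFinal) {lam th a eta d : ℝ}
    {u v : Fin 3 → ℝ} (hlam : lam < 0) (hlam8 : lam ^ 2 ≤ 1 / 8) (hth : 0 ≤ th) (hth8 : th ≤ 1 / 8)
    (hu : Dev u) (hvd : Dev v) (hd : d = 1 / lam ^ 2) (hSv : S v = lam ^ 2 * S u)
    (hCv : C v = lam ^ 3 * C u) (ha0 : 0 ≤ a) (ha : a ^ 2 = S u) (he : eta * a ^ 3 = C u)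
    (he1 : -1 ≤ eta) (he2 : eta ≤ 1) :
    (∀ j : Fin 3, d * tt j v ≤ 2) ∧
      0 < 47 * (1 + (1 - 2 * th) / 3 * (d * tA v)) -
        (34 * (3 / 4) ^ 2 * (1 + (1 - 2 * th) / 3 * (d * tB1 v) + 1 / 36 * (d * tB1 v) ^ 2) +
          42 * (3 / 4) ^ 2 * (1 + (1 - 2 * th) / 3 * (d * tB2 v) + 1 / 36 * (d * tB2 v) ^ 2)) ∧
      (1 - th) * (47 * (d * tA v) -
          (34 * (3 / 4) * (d * tB1 v) + 42 * (3 / 4) * (d * tB2 v))) ^ 2 /
        (2 * (47 * (1 + (1 - 2 * th) / 3 * (d * tA v)) -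
          (34 * (3 / 4) ^ 2 * (1 + (1 - 2 * th) / 3 * (d * tB1 v) + 1 / 36 * (d * tB1 v) ^ 2) +
            42 * (3 / 4) ^ 2 * (1 + (1 - 2 * th) / 3 * (d * tB2 v) + 1 / 36 * (d * tB2 v) ^ 2)))) +
          1 / 100 * ss u ^ 2 ≤
        (-47 * tA u + (34 * tB1 u + 42 * tB2 u)) -
          (-47 * (d * tA v) + (34 * (d * tB1 v) + 42 * (d * tB2 v))) := by
  have hS0 : 0 ≤ S u := by rw [S]; positivity
  have hS1 : S u ≤ 1 := S_eq_ss u ▸ ss_le_one (by norm_num) hu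
  have hC1 := (C_sq_le hu).2
  have hl2 : 0 < lam ^ 2 := pow_two_pos_of_ne_zero hlam.ne
  have hd0 : 0 ≤ d := by rw [hd]; positivity
  have ha1 : a ≤ 1 := by nlinarith
  set ell := -lam with hell
  have ha1sq : a ^ 2 ≤ 1 := pow_le_one₀ ha0 ha1
  obtain ⟨hden, hfin⟩ := hF a ell eta th ha0 ha1 (by linarith) (by rw [hell, neg_sq]; exact hlam8)
    he1 he2 (by rw [ha, he]; exact hC1) hth hth8
  obtain ⟨hV1, hB0, hB, hL3, htA, htB1, htB2, hA0, hB10, hB20⟩ := hV v hvd (by rw [hSv]; nlinarith)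
  have hdl : d * lam ^ 2 = 1 := by rw [hd, div_mul_cancel₀ _ hl2.ne']
  have eS : S v = ell ^ 2 * a ^ 2 := by rw [hSv, hell, ha]; ring
  have eC : C v = -(ell ^ 3 * a ^ 3 * eta) := by rw [hCv, ← he, hell]; ring
  have eS' : d * S v = a ^ 2 := by rw [hSv, ← mul_assoc, hdl, one_mul, ha]
  have hBd : d * B v ≤ a ^ 2 * psi a ell eta := by
    refine (mul_le_mul_of_nonneg_left hB hd0).trans (le_of_eq ?_)
    rw [eS, eC, psi]
    linear_combination (a ^ 2 * (851 / 200 + 93 / 10 * (ell * a) ^ 2 + 73 / 2 * (ell * a) ^ 4 +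
      (196 / 25 + 15 * (ell * a) ^ 2 + 70 * (ell * a) ^ 4) * (ell * a) * eta)) * hdl
  have hL : a ^ 2 * (1493 / 100 + 18 * (ell * a) ^ 2 + 44 * (ell * a) ^ 4 +
      (1369 / 100 + 24 * (ell * a) ^ 2 + 130 * (ell * a) ^ 4) * (ell * a) * eta) ≤ d * L3 v := by
    refine le_trans (le_of_eq ?_) (mul_le_mul_of_nonneg_left hL3 hd0)
    rw [eS, eC]
    linear_combination (-(a ^ 2 * (1493 / 100 + 18 * (ell * a) ^ 2 + 44 * (ell * a) ^ 4 +
      (1369 / 100 + 24 * (ell * a) ^ 2 + 130 * (ell * a) ^ 4) * (ell * a) * eta))) * hdl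
  have k1 : d * tB1 v ≤ 111 / 100 * a ^ 2 := by
    exact (mul_le_mul_of_nonneg_left htB1 hd0).trans_eq (by linear_combination (111 / 100 : ℝ) * eS')
  have k2 : d * tB2 v ≤ 26 / 25 * a ^ 2 := by
    exact (mul_le_mul_of_nonneg_left htB2 hd0).trans_eq (by linear_combination (26 / 25 : ℝ) * eS')
  have k0 : d * tA v ≤ 151 / 100 * a ^ 2 := by
    exact (mul_le_mul_of_nonneg_left htA hd0).trans_eq (by linear_combination (151 / 100 : ℝ) * eS')
  have q1 : (d * tB1 v) ^ 2 ≤ (111 / 100 * a ^ 2) ^ 2 := pow_le_pow_left₀ (mul_nonneg hd0 hB10) k1 2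
  have q2 : (d * tB2 v) ^ 2 ≤ (26 / 25 * a ^ 2) ^ 2 := pow_le_pow_left₀ (mul_nonneg hd0 hB20) k2 2
  have hbt0 : 0 ≤ (1 - 2 * th) / 3 := by linarith
  have hLb := mul_le_mul_of_nonneg_left hL hbt0
  have hdl2 : den a ell eta ((1 - 2 * th) / 3) ≤ 47 * (1 + ((1 - 2 * th) / 3) * (d * tA v)) -
      (34 * (3 / 4) ^ 2 * (1 + ((1 - 2 * th) / 3) * (d * tB1 v) + 1 / 36 * (d * tB1 v) ^ 2) +
        42 * (3 / 4) ^ 2 * (1 + ((1 - 2 * th) / 3) * (d * tB2 v) + 1 / 36 * (d * tB2 v) ^ 2)) := by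
    simp only [den]
    rw [L3] at hLb
    linarith [pow_nonneg ha0 4]
  refine ⟨fun j => ?_, hden.trans_le hdl2, ?_⟩
  · fin_cases j <;> simp [tt] <;> linarith [ha1sq]
  · have hSS : ss u ^ 2 = a ^ 4 := by rw [← S_eq_ss, ← ha]; ring
    rw [hSS]
    have hnum : (47 * (d * tA v) - (34 * (3 / 4) * (d * tB1 v) + 42 * (3 / 4) * (d * tB2 v))) ^ 2 ≤
        (a ^ 2 * psi a ell eta) ^ 2 := by
      rw [show 47 * (d * tA v) - (34 * (3 / 4) * (d * tB1 v) + 42 * (3 / 4) * (d * tB2 v)) =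
        d * B v by rw [B]; ring]
      exact pow_le_pow_left₀ (mul_nonneg hd0 hB0) hBd 2
    have hfrac := div_le_div₀ (mul_nonneg (by linarith) (sq_nonneg _))
      (mul_le_mul_of_nonneg_left hnum (show (0 : ℝ) ≤ 1 - th by linarith))
      (mul_pos two_pos hden) (mul_le_mul_of_nonneg_left hdl2 zero_le_two)
    refine le_trans (add_le_add_left hfrac _) ?_
    have hF4 := mul_le_mul_of_nonneg_left hfin (pow_nonneg ha0 4)
    have hU' := hU u hu
    have hV' := mul_le_mul_of_nonneg_left hV1 hd0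
    rw [← ha, ← he, F] at hU'
    rw [F, eS] at hV'
    have e1 : (1 - th) * (a ^ 2 * psi a ell eta) ^ 2 / (2 * den a ell eta ((1 - 2 * th) / 3)) =
        a ^ 4 * ((1 - th) * psi a ell eta ^ 2 / (2 * den a ell eta ((1 - 2 * th) / 3))) := by ring
    rw [e1]
    have e2 : d * (10 * (ell ^ 2 * a ^ 2) + 81 / 20 * (ell ^ 2 * a ^ 2) ^ 2) =
        10 * a ^ 2 + 81 / 20 * ell ^ 2 * a ^ 4 := by
      linear_combination (10 * a ^ 2 + 81 / 20 * ell ^ 2 * a ^ 4) * hdl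
    linarith

/-- The pointwise certificate at `lam`, interpolating parameter `th`. -/
theorem pointCert (hU : BoundU) (hV : BoundV) (hF : BoundFinal) {lam th : ℝ} (hlam : lam < 0)
    (hlam8 : lam ^ 2 ≤ 1 / 8) (hth : 0 ≤ th) (hth8 : th ≤ 1 / 8) :
    PointCert (N := 2) lam (1 / lam ^ 2) (1 - th) ((1 - 2 * th) / 3) (1 / 36) 2 (1 / 100) atom coef
      wgt := by
  refine ⟨by norm_num, fun j => by fin_cases j <;> norm_num [coef],
    fun j i => by fin_cases j <;> fin_cases i <;> norm_num [atom],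
    fun j => by fin_cases j <;> simp [atom, Fin.sum_univ_three] <;> norm_num, fun u hu => ?_⟩
  have hl2 : 0 < lam ^ 2 := pow_two_pos_of_ne_zero hlam.ne
  set d := 1 / lam ^ 2 with hd
  have hd0 : 0 ≤ d := by positivity
  have hlam2 : -(1 / 2) ≤ lam := by nlinarith
  set v : Fin 3 → ℝ := fun i => lam * u i with hv
  have hvd : Dev v := hu.scale (q := 3) (by norm_num) (by norm_num; linarith) (by linarith)
  -- averages
  have hpav : ∀ j, PointAssembly.pav (fun w => d * (1 - aff (atom j) fun i => lam * w i)) u =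
      d * tt j v := fun j => by
    have h := pav_aff hvd j
    simp only [PointAssembly.pav] at h ⊢
    rw [← mul_sum, sum_sub_distrib, sum_const, card_univ, nsmul_eq_mul, mul_one]
    have hc : (Fintype.card (Equiv.Perm (Fin 3)) : ℝ) ≠ 0 := by positivity
    rw [div_eq_iff hc] at h ⊢
    have e : ∀ σ : Equiv.Perm (Fin 3), (fun i => lam * (u ∘ σ) i) = v ∘ σ := fun σ => rfl
    simp only [e, h]
    ring
  have hpav0 : ∀ j, PointAssembly.pav (aff (atom j)) u = 1 - tt j u := pav_aff hu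
  have hlin : PointAssembly.pav (fun w =>
      coef 0 * (d * (1 - aff (atom 0) fun i => lam * w i)) -
        ∑ k : Fin 2, coef k.succ * wgt k.succ * (d * (1 - aff (atom k.succ) fun i => lam * w i))) u =
      coef 0 * (d * tt 0 v) - ∑ k : Fin 2, coef k.succ * wgt k.succ * (d * tt k.succ v) := by
    simp only [← hpav, PointAssembly.pav, Fin.sum_univ_two, sum_sub_distrib, sum_add_distrib,
      ← mul_sum]
    ring
  show (∀ j, (PointAssembly.pav (fun w => d * (1 - aff (atom j) fun i => lam * w i)) u) ≤ 2) ∧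
    0 < (coef 0 * (1 + (1 - 2 * th) / 3 * (PointAssembly.pav (fun w => d * (1 - aff (atom 0) fun i => lam * w i)) u)) - ∑ k : Fin 2,
      coef k.succ * wgt k.succ ^ 2 * (1 + (1 - 2 * th) / 3 *
        (PointAssembly.pav (fun w => d * (1 - aff (atom k.succ) fun i => lam * w i)) u) +
        1 / 36 * (PointAssembly.pav (fun w => d * (1 - aff (atom k.succ) fun i => lam * w i)) u) ^ 2)) ∧
    (1 - th) * PointAssembly.pav
        (fun w => coef 0 * (d * (1 - aff (atom 0) fun i => lam * w i)) - ∑ k : Fin 2, coef k.succ * wgt k.succ * (d * (1 - aff (atom k.succ) fun i => lam * w i))) u ^ 2 /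
      (2 * (coef 0 * (1 + (1 - 2 * th) / 3 * (PointAssembly.pav (fun w => d * (1 - aff (atom 0) fun i => lam * w i)) u)) - ∑ k : Fin 2,
      coef k.succ * wgt k.succ ^ 2 * (1 + (1 - 2 * th) / 3 *
        (PointAssembly.pav (fun w => d * (1 - aff (atom k.succ) fun i => lam * w i)) u) +
        1 / 36 * (PointAssembly.pav (fun w => d * (1 - aff (atom k.succ) fun i => lam * w i)) u) ^ 2))) + 1 / 100 * ss u ^ 2 ≤
    (-(coef 0) * (1 - PointAssembly.pav (aff (atom 0)) u) + ∑ k : Fin 2,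
        coef k.succ * (1 - PointAssembly.pav (aff (atom k.succ)) u)) -
      (-(coef 0) * (PointAssembly.pav (fun w => d * (1 - aff (atom 0) fun i => lam * w i)) u) + ∑ k : Fin 2, coef k.succ *
        (PointAssembly.pav (fun w => d * (1 - aff (atom k.succ) fun i => lam * w i)) u))
  rw [hlin]
  simp only [hpav, hpav0, sub_sub_cancel, Fin.sum_univ_two]
  simp only [show (Fin.succ 0 : Fin 3) = 1 from rfl, show (Fin.succ 1 : Fin 3) = 2 from rfl, coef,
    wgt, tt, Matrix.cons_val_zero, Matrix.cons_val_one, Matrix.cons_val]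
  -- the parameters
  have hS0 : 0 ≤ S u := by rw [S]; positivity
  have hS1 : S u ≤ 1 := S_eq_ss u ▸ ss_le_one (by norm_num) hu
  have hSv : S v = lam ^ 2 * S u := by simp only [S, v]; ring
  have hCv : C v = lam ^ 3 * C u := by simp only [C, v]; ring
  obtain ⟨hC2, hC1⟩ := C_sq_le hu
  obtain ⟨a, ha0, ha⟩ : ∃ a, 0 ≤ a ∧ a ^ 2 = S u := ⟨√(S u), sqrt_nonneg _, sq_sqrt hS0⟩
  obtain ⟨eta, he, he1, he2⟩ : ∃ eta : ℝ, eta * a ^ 3 = C u ∧ -1 ≤ eta ∧ eta ≤ 1 := by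
    have h6 : C u ^ 2 ≤ (a ^ 3) ^ 2 := by
      calc C u ^ 2 ≤ S u ^ 3 := hC2
        _ = (a ^ 3) ^ 2 := by rw [← ha]; ring
    rcases ha0.eq_or_lt with h | h
    · refine ⟨0, ?_, by norm_num, by norm_num⟩
      rw [← h] at h6
      nlinarith [sq_nonneg (C u)]
    · obtain ⟨k1, k2⟩ := abs_le_of_sq_le_sq' h6 (by positivity)
      have h3 : 0 < a ^ 3 := pow_pos h 3
      refine ⟨C u / a ^ 3, div_mul_cancel₀ _ h3.ne', ?_, ?_⟩
      · rw [le_div_iff₀ h3]; linarith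
      · rw [div_le_iff₀ h3]; linarith
  exact point_core hU hV hF hlam hlam8 hth hth8 hu hvd hd hSv hCv ha0 ha he he1 he2

/-- Nonreconstruction for three states on `[-1/√8, 0)`, given the numerical bounds. -/
theorem nonReconstructs_of_bounds (hU : BoundU) (hV : BoundV) (hF : BoundFinal) (lam : ℝ)
    (hl : -(1 / √8) ≤ lam) (h0 : lam < 0) :
    (∀ d : ℕ, (d : ℝ) * lam ^ 2 ≤ 1 → NonReconstructs (aRegular 3 lam d)) ∧
      ∀ d : ℝ, 0 ≤ d → d * lam ^ 2 ≤ 1 → NonReconstructs (aPoisson 3 lam d) := by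
  have h8 : 1 / √8 ≤ (1 : ℝ) / 2 :=
    one_div_le_one_div_of_le two_pos (Real.le_sqrt_of_sq_le (by norm_num))
  have hadm : -(1 / (((3 : ℕ) : ℝ) - 1)) ≤ -(1 / √((8 : ℕ) : ℝ)) := by
    push_cast; norm_num at h8 ⊢; linarith
  refine nonReconstructs_of_critical (by norm_num) 8 (by norm_num) hadm (fun l hl' hl0 => ?_)
    (fun d hd => ?_) lam (by exact_mod_cast hl) h0
  · have hl'' : -(1 / (((3 : ℕ) : ℝ) - 1)) ≤ l := hadm.trans hl'
    have hl2 : l ^ 2 ≤ 1 / 8 := by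
      have h : (-l) ≤ 1 / √8 := by push_cast at hl'; linarith
      calc l ^ 2 = (-l) ^ 2 := (neg_sq l).symm
        _ ≤ (1 / √8) ^ 2 := pow_le_pow_left₀ (by linarith) h 2
        _ = 1 / 8 := by rw [div_pow, sq_sqrt (by norm_num)]; norm_num
    have hd : 0 < 1 / l ^ 2 := by have := pow_two_pos_of_ne_zero hl0.ne; positivity
    refine nonReconstructs_poisson_of_affCert (by norm_num) l hl'' (by linarith) _ hd.le ?_
    refine affCert_of_pointCert (N := 2) (α := atom) (b := coef) (r := wgt) (ε := 1 / 100) (by norm_num) l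
      hl'' (by linarith)
      (genBounds_poisson hd le_rfl) ?_
    have := pointCert hU hV hF hl0 hl2 le_rfl (by norm_num)
    simpa using this
  · have hd' : (8 : ℝ) ≤ d := by exact_mod_cast hd
    set l := -(1 / √(d : ℝ)) with hl_def
    have hsd : 0 < √(d : ℝ) := Real.sqrt_pos.2 (by linarith)
    have hl0 : l < 0 := by rw [hl_def]; have := one_div_pos.2 hsd; linarith
    have hl2 : l ^ 2 = 1 / d := by
      rw [hl_def, neg_sq, div_pow, sq_sqrt (by linarith)]; norm_num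
    have hl'' : -(1 / (((3 : ℕ) : ℝ) - 1)) ≤ l :=
      hadm.trans (neg_le_neg (one_div_le_one_div_of_le (by positivity)
        (Real.sqrt_le_sqrt (by exact_mod_cast hd))))
    refine nonReconstructs_regular_of_affCert (by norm_num) l hl'' (by linarith) d ?_
    refine affCert_of_pointCert (N := 2) (α := atom) (b := coef) (r := wgt) (ε := 1 / 100) (by norm_num) l
      hl'' (by linarith)
      (genBounds_regular (by omega) le_rfl) ?_
    have h18 : (1 : ℝ) / d ≤ 1 / 8 := one_div_le_one_div_of_le (by norm_num) hd'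
    have := pointCert hU hV hF hl0 (hl2 ▸ h18) (th := 1 / (d : ℝ)) (by positivity) h18
    rw [hl2] at this
    simp only [one_div_one_div] at this
    rw [show (2 : ℝ) / d = 2 * (1 / d) by ring]
    exact this

end Vale.Agent.P154.Neg3
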