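import Vale.Agent.P154.Law

/-!
Three affinity defects for three states, and their description in two real parameters.
-/

namespace Vale.Agent.P154.Neg3

open Real

/-- `Σ u² / 6`. -/
noncomputable def S (u : Fin 3 → ℝ) : ℝ := (u 0 ^ 2 + u 1 ^ 2 + u 2 ^ 2) / 6

/-- `Σ u³ / 6`. -/
noncomputable def C (u : Fin 3 → ℝ) : ℝ := (u 0 ^ 3 + u 1 ^ 3 + u 2 ^ 3) / 6

/-- Mean square root of `1 + u`. -/
noncomputable def sig (u : Fin 3 → ℝ) : ℝ := (√(1 + u 0) + √(1 + u 1) + √(1 + u 2)) / 3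

/-- Sixth root of the product of `1 + u`. -/
noncomputable def wr (u : Fin 3 → ℝ) : ℝ := (√(1 + u 0) * √(1 + u 1) * √(1 + u 2)) ^ (1 / 3 : ℝ)

/-- Defect for exponents `(1/3,1/3,1/3)`. -/
noncomputable def tA (u : Fin 3 → ℝ) : ℝ := 1 - wr u ^ 2

/-- Defect for exponents `(2/3,1/6,1/6)`, averaged over permutations. -/
noncomputable def tB1 (u : Fin 3 → ℝ) : ℝ := 1 - sig u * wr u

/-- Defect for exponents `(1/2,1/2,0)`, averaged over permutations. -/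
noncomputable def tB2 (u : Fin 3 → ℝ) : ℝ := 3 / 2 * (1 - sig u ^ 2)

/-- The Lyapunov combination. -/
noncomputable def F (u : Fin 3 → ℝ) : ℝ := -47 * tA u + 34 * tB1 u + 42 * tB2 u

/-- The Cauchy-Schwarz combination. -/
noncomputable def B (u : Fin 3 → ℝ) : ℝ := 47 * tA u - 51 / 2 * tB1 u - 63 / 2 * tB2 u

/-- The linear part of the denominator. -/
noncomputable def L3 (u : Fin 3 → ℝ) : ℝ := 47 * tA u - 9 / 16 * (34 * tB1 u + 42 * tB2 u)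

/-- `S` as a polynomial in the mean square root `s` and the product `m` of the square roots. -/
noncomputable def Spoly (s m : ℝ) : ℝ := 1 - 3 * ((3 * s ^ 2 - 1) / 2) ^ 2 + 2 * s * m

/-- `C` as a polynomial in `s` and `m`. -/
noncomputable def Cpoly (s m : ℝ) : ℝ := (m ^ 2 - 1 + 3 * Spoly s m) / 2

/-- Every deviation has parameters `s`, `q`, `chi` with the displayed properties. -/
theorem param {u : Fin 3 → ℝ} (hu : Dev u) :
    ∃ s q m : ℝ, s = sig u ∧ 0 ≤ s ∧ 0 ≤ q ∧ s ^ 2 + q ^ 2 = 1 ∧ 1 ≤ 3 * s ^ 2 ∧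
      0 ≤ m ∧ m = wr u ^ 3 ∧ 0 ≤ wr u ∧ (m - s ^ 3 + 3 / 2 * q ^ 2 * s) ^ 2 ≤ q ^ 6 / 2 ∧
      S u = Spoly s m ∧ C u = Cpoly s m := by
  have h3 : u 0 + u 1 + u 2 = 0 := by
    have := hu.1; rwa [Fin.sum_univ_three] at this
  obtain ⟨a, ha⟩ : ∃ a, a = √(1 + u 0) := ⟨_, rfl⟩
  obtain ⟨b, hb⟩ : ∃ b, b = √(1 + u 1) := ⟨_, rfl⟩
  obtain ⟨c, hc⟩ : ∃ c, c = √(1 + u 2) := ⟨_, rfl⟩
  have a0 : 0 ≤ a := ha ▸ sqrt_nonneg _
  have b0 : 0 ≤ b := hb ▸ sqrt_nonneg _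
  have c0 : 0 ≤ c := hc ▸ sqrt_nonneg _
  have ea : u 0 = a ^ 2 - 1 := by rw [ha, sq_sqrt (by linarith [hu.2 0])]; ring
  have eb : u 1 = b ^ 2 - 1 := by rw [hb, sq_sqrt (by linarith [hu.2 1])]; ring
  have ec : u 2 = c ^ 2 - 1 := by rw [hc, sq_sqrt (by linarith [hu.2 2])]; ring
  have hsum : a ^ 2 + b ^ 2 + c ^ 2 = 3 := by rw [ea, eb, ec] at h3; linarith
  have hs1 : (a + b + c) ^ 2 ≤ 9 := by
    nlinarith [sq_nonneg (a - b), sq_nonneg (b - c), sq_nonneg (a - c)]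
  have hs : sig u = (a + b + c) / 3 := by rw [sig, ← ha, ← hb, ← hc]
  have hs' : 0 ≤ 1 - ((a + b + c) / 3) ^ 2 := by nlinarith
  have hw : wr u ^ 3 = a * b * c := by
    rw [wr, ← ha, ← hb, ← hc, ← rpow_natCast, ← rpow_mul (by positivity)]
    norm_num
  have hw0 : 0 ≤ wr u := rpow_nonneg (by positivity) _
  have hq : √(1 - ((a + b + c) / 3) ^ 2) ^ 2 = 1 - ((a + b + c) / 3) ^ 2 := sq_sqrt hs'
  refine ⟨(a + b + c) / 3, √(1 - ((a + b + c) / 3) ^ 2), a * b * c, hs.symm, by positivity,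
    sqrt_nonneg _, ?_, ?_, by positivity, hw.symm, hw0, ?_, ?_, ?_⟩
  · rw [hq]; ring
  · nlinarith [mul_nonneg a0 b0, mul_nonneg a0 c0, mul_nonneg b0 c0]
  · have h6 : √(1 - ((a + b + c) / 3) ^ 2) ^ 6 = (1 - ((a + b + c) / 3) ^ 2) ^ 3 := by
      rw [show (6 : ℕ) = 2 * 3 from rfl, pow_mul, hq]
    rw [hq, h6]
    have key : ∀ x y z : ℝ, x + y + z = 0 → (x * y * z) ^ 2 ≤ (x ^ 2 + y ^ 2 + z ^ 2) ^ 3 / 54 := by
      intro x y z h
      obtain rfl : z = -x - y := by linarith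
      nlinarith [sq_nonneg ((x - y) * (2 * x + y) * (x + 2 * y))]
    have := key (a - (a + b + c) / 3) (b - (a + b + c) / 3) (c - (a + b + c) / 3) (by ring)
    have e2 : (a - (a + b + c) / 3) ^ 2 + (b - (a + b + c) / 3) ^ 2 + (c - (a + b + c) / 3) ^ 2
        = 3 * (1 - ((a + b + c) / 3) ^ 2) := by
      linear_combination hsum
    have e3 : (a - (a + b + c) / 3) * (b - (a + b + c) / 3) * (c - (a + b + c) / 3)
        = a * b * c - ((a + b + c) / 3) ^ 3 + 3 / 2 * (1 - ((a + b + c) / 3) ^ 2) * ((a + b + c) / 3) := by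
      linear_combination ((a + b + c) / 6) * hsum
    rw [e2, e3] at this
    refine le_trans this (le_of_eq ?_)
    ring
  · rw [S, Spoly, ea, eb, ec]
    obtain ⟨e, he⟩ : ∃ e, e = a * b + a * c + b * c := ⟨_, rfl⟩
    have e' : (3 * ((a + b + c) / 3) ^ 2 - 1) / 2 = e / 3 := by
      rw [he]; linear_combination hsum / 6
    rw [e', he]
    linear_combination ((a ^ 2 + b ^ 2 + c ^ 2 + 3) / 6 - 1 / 3) * hsum
  · rw [C, Cpoly, Spoly, ea, eb, ec]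
    obtain ⟨e, he⟩ : ∃ e, e = a * b + a * c + b * c := ⟨_, rfl⟩
    have e' : (3 * ((a + b + c) / 3) ^ 2 - 1) / 2 = e / 3 := by
      rw [he]; linear_combination hsum / 6
    rw [e', he]
    linear_combination (((a^2+b^2+c^2)^2 + 3*(a^2+b^2+c^2) + 9)/6 - (a^2*b^2+a^2*c^2+b^2*c^2)/2 - ((a^2+b^2+c^2) + 3)/2 + 1/2) * hsum

end Vale.Agent.P154.Neg3
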