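import Vale.Agent.P154.Neg3.Polys

/-!
Box certificates (generated).
-/

namespace Vale.Agent.P154.Neg3

open PolyCheck

theorem cUenv : checkAlt 2
    [[u0 K0 pLo], [u1 K0 pLo, negC], [exHi 30]]
    (.cut 0 (.cut 0 (.leaf 0) (.cut 1 (.cut 0 (.cut 0 (.cut 1 (.leaf 1) (.leaf 0)) (.leaf 2)) (.leaf 2)) (.leaf 0))) (.leaf 0))
    [⟨0, 3, 2⟩, ⟨-7072, 7072, 10000⟩] = true := by
  decide +kernel

theorem cU30 : checkAlt 2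
    [[u0 100000 (pChord 30 40 8879 8434)], [u1 100000 (pChord 30 40 8879 8434), negC], [exLo 30], [exHi 40]]
    (.cut 0 (.cut 0 (.leaf 0) (.cut 1 (.cut 0 (.cut 0 (.cut 1 (.leaf 1) (.leaf 0)) (.cut 1 (.cut 0 (.leaf 1) (.leaf 0)) (.leaf 0))) (.leaf 0)) (.leaf 0))) (.leaf 0))
    [⟨0, 3, 2⟩, ⟨-7072, 7072, 10000⟩] = true := by
  decide +kernel

theorem cU40 : checkAlt 2
    [[u0 100000 (pChord 40 50 8434 7937)], [u1 100000 (pChord 40 50 8434 7937), negC], [exLo 40], [exHi 50]]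
    (.cut 0 (.cut 0 (.leaf 0) (.cut 1 (.cut 0 (.cut 0 (.cut 1 (.leaf 1) (.leaf 0)) (.cut 1 (.cut 0 (.leaf 1) (.cut 0 (.cut 1 (.leaf 1) (.leaf 0)) (.leaf 0))) (.leaf 0))) (.leaf 0)) (.leaf 0))) (.leaf 0))
    [⟨0, 3, 2⟩, ⟨-7072, 7072, 10000⟩] = true := by
  decide +kernel

theorem cU50 : checkAlt 2
    [[u0 80000 (pChord 50 58 7937 7488)], [u1 80000 (pChord 50 58 7937 7488), negC], [exLo 50], [exHi 58]]
    (.cut 0 (.cut 0 (.leaf 0) (.cut 1 (.cut 0 (.cut 0 (.leaf 0) (.cut 1 (.cut 0 (.leaf 1) (.cut 0 (.cut 1 (.leaf 1) (.leaf 0)) (.cut 1 (.leaf 1) (.cut 0 (.cut 0 (.cut 1 (.leaf 1) (.leaf 0)) (.cut 1 (.leaf 1) (.leaf 0))) (.cut 0 (.cut 1 (.leaf 1) (.leaf 0)) (.cut 1 (.leaf 1) (.leaf 0))))))) (.leaf 0))) (.cut 0 (.cut 1 (.cut 0 (.cut 0 (.cut 1 (.leaf 1) (.leaf 0)) (.leaf 0)) (.leaf 0)) (.leaf 0)) (.leaf 0)))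 (.leaf 0))) (.leaf 0))
    [⟨0, 3, 2⟩, ⟨-7072, 7072, 10000⟩] = true := by
  decide +kernel

theorem cU58 : checkAlt 2
    [[u0 60000 (pChord 58 64 7488 7113)], [u1 60000 (pChord 58 64 7488 7113), negC], [exLo 58], [exHi 64]]
    (.cut 0 (.cut 0 (.leaf 0) (.cut 1 (.cut 0 (.cut 0 (.leaf 0) (.cut 1 (.cut 0 (.leaf 0) (.cut 0 (.leaf 2) (.cut 1 (.leaf 1) (.leaf 0)))) (.leaf 0))) (.cut 0 (.cut 1 (.cut 0 (.cut 0 (.cut 1 (.leaf 1) (.cut 0 (.leaf 0) (.cut 0 (.cut 1 (.leaf 1) (.leaf 0)) (.cut 1 (.leaf 1) (.leaf 0))))) (.cut 1 (.leaf 1) (.cut 0 (.cut 0 (.cut 1 (.leaf 1) (.leaf 0)) (.leaf 0)) (.leaf 0)))) (.leaf 0)) (.leaf 0)) (.leaf 0))) (.leaf 0))) (.leaf 0))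
    [⟨0, 3, 2⟩, ⟨-7072, 7072, 10000⟩] = true := by
  decide +kernel

end Vale.Agent.P154.Neg3
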