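import Vale.Agent.P154.Neg3.Polys

/-!
Box certificates (generated).
-/

namespace Vale.Agent.P154.Neg3

open PolyCheck

theorem cU64 : checkAlt 2
    [[u0 60000 (pChord 64 70 7113 6694)], [u1 60000 (pChord 64 70 7113 6694), negC], [exLo 64], [exHi 70]]
    (.cut 0 (.cut 0 (.leaf 0) (.cut 1 (.cut 0 (.leaf 2) (.cut 0 (.cut 1 (.cut 0 (.cut 0 (.cut 1 (.leaf 1) (.leaf 0)) (.cut 1 (.leaf 1) (.cut 0 (.leaf 0) (.cut 0 (.cut 1 (.leaf 1) (.leaf 0)) (.cut 1 (.leaf 1) (.leaf 0)))))) (.cut 0 (.cut 1 (.leaf 1) (.cut 0 (.cut 0 (.cut 1 (.leaf 1) (.leaf 0)) (.leaf 0)) (.leaf 0))) (.leaf 0))) (.leaf 0)) (.leaf 0))) (.leaf 0))) (.leaf 0))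
    [⟨0, 3, 2⟩, ⟨-7072, 7072, 10000⟩] = true := by
  decide +kernel

theorem cU70 : checkAlt 2
    [[u0 40000 (pChord 70 74 6694 6382)], [u1 40000 (pChord 70 74 6694 6382), negC], [exLo 70], [exHi 74]]
    (.cut 0 (.cut 0 (.leaf 0) (.cut 1 (.cut 0 (.leaf 0) (.cut 0 (.cut 1 (.cut 0 (.cut 0 (.leaf 2) (.cut 1 (.leaf 1) (.leaf 0))) (.cut 0 (.cut 1 (.leaf 1) (.leaf 0)) (.cut 1 (.leaf 1) (.leaf 0)))) (.leaf 0)) (.leaf 0))) (.leaf 0))) (.leaf 0))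
    [⟨0, 3, 2⟩, ⟨-7072, 7072, 10000⟩] = true := by
  decide +kernel

theorem cU74 : checkAlt 2
    [[u0 40000 (pChord 74 78 6382 6036)], [u1 40000 (pChord 74 78 6382 6036), negC], [exLo 74], [exHi 78]]
    (.cut 0 (.cut 0 (.leaf 0) (.cut 1 (.cut 0 (.leaf 0) (.cut 0 (.cut 1 (.cut 0 (.leaf 2) (.cut 0 (.cut 1 (.leaf 1) (.leaf 0)) (.cut 1 (.leaf 1) (.leaf 0)))) (.leaf 0)) (.leaf 0))) (.leaf 0))) (.leaf 0))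
    [⟨0, 3, 2⟩, ⟨-7072, 7072, 10000⟩] = true := by
  decide +kernel

theorem cU78 : checkAlt 2
    [[u0 60000 (pChord 78 84 6036 5428)], [u1 60000 (pChord 78 84 6036 5428), negC], [exLo 78], [exHi 84]]
    (.cut 0 (.cut 0 (.leaf 0) (.cut 1 (.cut 0 (.leaf 0) (.cut 0 (.cut 1 (.cut 0 (.leaf 0) (.cut 0 (.leaf 2) (.cut 1 (.leaf 1) (.leaf 0)))) (.leaf 0)) (.cut 1 (.cut 0 (.cut 0 (.cut 1 (.leaf 1) (.leaf 0)) (.leaf 0)) (.leaf 0)) (.leaf 0)))) (.leaf 0))) (.leaf 0))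
    [⟨0, 3, 2⟩, ⟨-7072, 7072, 10000⟩] = true := by
  decide +kernel

theorem cU84 : checkAlt 2
    [[u0 100000 (pChord 84 94 5428 3914)], [u1 100000 (pChord 84 94 5428 3914), negC], [exLo 84], [exHi 94]]
    (.cut 0 (.cut 0 (.leaf 0) (.cut 1 (.cut 0 (.leaf 0) (.cut 0 (.cut 1 (.cut 0 (.leaf 0) (.cut 0 (.leaf 0) (.cut 1 (.leaf 1) (.leaf 0)))) (.leaf 0)) (.cut 1 (.cut 0 (.cut 0 (.cut 1 (.leaf 1) (.leaf 0)) (.cut 1 (.leaf 0) (.leaf 0))) (.leaf 0)) (.leaf 0)))) (.leaf 0))) (.cut 0 (.cut 1 (.leaf 0) (.leaf 0)) (.leaf 0)))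
    [⟨0, 3, 2⟩, ⟨-7072, 7072, 10000⟩] = true := by
  decide +kernel

theorem cUtop : checkAlt 2
    [[uMin0], [uMin1, negC], [exLo 94], [exHi 100]]
    (.cut 0 (.cut 0 (.leaf 2) (.cut 1 (.cut 0 (.leaf 2) (.cut 0 (.leaf 2) (.cut 1 (.cut 0 (.cut 0 (.leaf 2) (.cut 1 (.cut 0 (.cut 0 (.leaf 2) (.cut 1 (.leaf 1) (.leaf 2))) (.cut 0 (.cut 1 (.leaf 0) (.leaf 2)) (.leaf 0))) (.leaf 2))) (.cut 0 (.cut 1 (.leaf 0) (.cut 0 (.cut 0 (.cut 1 (.cut 0 (.leaf 2) (.leaf 0)) (.leaf 2)) (.cut 1 (.leaf 0) (.leaf 2))) (.leaf 0))) (.leaf 0))) (.cut 0 (.leaf 2) (.cut 0 (.leaf 2) (.cut 1 (.cut 0 (.cut 0 (.cut 1 (.leaf 0) (.leaf 2)) (.cut 1 (.leaf 0) (.leaf 2))) (.leaf 0)) (.leaf 2))))))) (.leaf 2))) (.cut 0 (.cut 1 (.cut 0 (.cut 0 (.cut 1 (.leaf 0) (.cut 0 (.cut 0 (.cut 1 (.leaf 0) (.cut 0 (.cut 0 (.leaf 2)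 (.cut 1 (.leaf 0) (.leaf 2))) (.leaf 0))) (.leaf 0)) (.leaf 0))) (.leaf 0)) (.leaf 0)) (.cut 0 (.cut 0 (.cut 1 (.cut 0 (.cut 0 (.leaf 2) (.cut 1 (.cut 0 (.leaf 2) (.cut 0 (.leaf 2) (.leaf 0))) (.leaf 2))) (.cut 0 (.cut 1 (.leaf 0) (.leaf 2)) (.cut 1 (.leaf 0) (.cut 0 (.leaf 2) (.leaf 0))))) (.leaf 2)) (.cut 1 (.leaf 0) (.cut 0 (.cut 0 (.leaf 2) (.cut 1 (.cut 0 (.leaf 2) (.leaf 0)) (.leaf 2))) (.cut 0 (.cut 1 (.leaf 0) (.leaf 2)) (.cut 1 (.leaf 0) (.leaf 2)))))) (.cut 0 (.cut 1 (.leaf 0) (.cut 0 (.cut 0 (.cut 1 (.leaf 0) (.leaf 2)) (.leaf 0)) (.leaf 0))) (.leaf 0)))) (.leaf 0)))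
    [⟨0, 3, 2⟩, ⟨-7072, 7072, 10000⟩] = true := by
  decide +kernel

end Vale.Agent.P154.Neg3
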