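import Vale.Agent.P154.Neg3.CertV
import Vale.Agent.P154.Neg3.CertU1
import Vale.Agent.P154.Neg3.CertU2

/-!
The bounds `BoundU` and `BoundV`, from the box certificates.
-/

namespace Vale.Agent.P154.Neg3

open PolyCheck

theorem boxU {T x : ℝ} (h0 : 0 ≤ T) (h1 : T ≤ 3 / 2) (hl : -(7072 / 10000) ≤ x)
    (hu : x ≤ 7072 / 10000) : BoxMem [⟨0, 3, 2⟩, ⟨-7072, 7072, 10000⟩] (pt [T, x]) := by
  refine ⟨⟨?_, ?_⟩, ⟨?_, ?_⟩, trivial⟩ <;> simp <;> linarith

theorem boxV {T x : ℝ} (h0 : 0 ≤ T) (h1 : T ≤ 2 / 5) (hl : -(7072 / 10000) ≤ x)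
    (hu : x ≤ 7072 / 10000) : BoxMem [⟨0, 2, 5⟩, ⟨-7072, 7072, 10000⟩] (pt [T, x]) := by
  refine ⟨⟨?_, ?_⟩, ⟨?_, ?_⟩, trivial⟩ <;> simp <;> linarith

theorem exS_false {T x : ℝ} (h : Sv T x ≤ 1 / 8) : ¬ 0 ≤ exS.eval (pt [T, x]) := by
  simp [exS, ev_pS, ev_pD]
  nlinarith [sq_nonneg (Dp T)]

theorem T_small {T x : ℝ} (h0 : 0 ≤ T) (h1 : T ≤ 3 / 2) (hl : -(7072 / 10000) ≤ x)
    (hu : x ≤ 7072 / 10000) (hy : yv T x ≤ 1) (hS : Sv T x ≤ 1 / 8) : T ≤ 2 / 5 := by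
  by_contra h
  have hb : BoxMem [⟨4, 15, 10⟩, ⟨-7072, 7072, 10000⟩] (pt [T, x]) := by
    refine ⟨⟨?_, ?_⟩, ⟨?_, ?_⟩, trivial⟩ <;> simp <;> linarith
  obtain ⟨ps, hm, hp⟩ := checkAlt_sound _ _ _ _ _ cVout hb
  simp only [List.mem_cons, List.not_mem_nil, or_false] at hm
  rcases hm with rfl | rfl
  · exact exS_false hS (hp _ (by simp))
  · have := hp (exHi 100) (by simp)
    simp [exHi, ev_pY] at this
    linarith

/-- Extract the first alternative. -/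
theorem first_alt {T x : ℝ} {p : Ex} {tr : ACut}
    (hc : checkAlt 2 [[p], [exS]] tr [⟨0, 2, 5⟩, ⟨-7072, 7072, 10000⟩] = true)
    (hb : BoxMem [⟨0, 2, 5⟩, ⟨-7072, 7072, 10000⟩] (pt [T, x])) (hS : Sv T x ≤ 1 / 8) :
    0 ≤ p.eval (pt [T, x]) := by
  obtain ⟨ps, hm, hp⟩ := checkAlt_sound _ _ _ _ _ hc hb
  simp only [List.mem_cons, List.not_mem_nil, or_false] at hm
  rcases hm with rfl | rfl
  · exact hp _ (by simp)
  · exact absurd (hp _ (by simp)) (exS_false hS)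

theorem ghi_lo {y : ℝ} (hy : 0 ≤ y) (hy' : y ≤ 1) : 3 / 7 ≤ ghi y := by
  have p : ∀ n : ℕ, y ^ n ≤ 1 := fun n => pow_le_one₀ hy hy'
  unfold ghi; linarith [p 2, p 3, p 4]

theorem glo_lo {y : ℝ} (hy : 0 ≤ y) (hy' : y ≤ 3 / 10) : 4 / 5 ≤ glo y := by
  have p : ∀ n : ℕ, y ^ n ≤ (3 / 10) ^ n := fun n => pow_le_pow_left₀ hy hy' n
  unfold glo ghi; linarith [p 2, p 3, p 4, p 5]

theorem yv_small {T x : ℝ} (h0 : 0 ≤ T) (h1 : T ≤ 2 / 5) (hl : -(7072 / 10000) ≤ x) :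
    yv T x ≤ 3 / 10 := by
  have h2 : T ^ 2 ≤ 4 / 25 := by nlinarith
  have h3 : T ^ 3 ≤ 8 / 125 := by nlinarith
  have : 0 ≤ T ^ 3 := by positivity
  unfold yv; nlinarith

theorem v1_bound {T x g : ℝ} (hb : BoxMem [⟨0, 2, 5⟩, ⟨-7072, 7072, 10000⟩] (pt [T, x]))
    (hS : Sv T x ≤ 1 / 8) (hg : 0 ≤ g) (hlo : glo (yv T x) ≤ g) (hhi : g ≤ ghi (yv T x))
    (blo : 4 / 5 ≤ glo (yv T x)) (bhi : 3 / 7 ≤ ghi (yv T x)) :
    Fv T g ≤ 10 * Sv T x + 81 / 20 * Sv T x ^ 2 := by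
  have hD := Dp_pos T
  have kHi : pHi.eval (pt [T, x]) = ((194400 : ℤ) : ℝ) * ghi (yv T x) := by
    rw [ev_pHi]; norm_num
  have kLo : pLo.eval (pt [T, x]) = ((194400 : ℤ) : ℝ) * glo (yv T x) := by
    rw [ev_pLo]; norm_num
  refine le_trans (Fv_mono (by linarith) hhi) ?_
  have h := first_alt cV1 hb hS
  simp [v1, ev_pS, ev_pD, K0, ev_nF 194400 pHi T x _ kHi] at h
  have hpos : 0 < Dp T ^ 4 := by positivity
  nlinarith [h, hpos]
theorem v2n_bound {T x g : ℝ} (hb : BoxMem [⟨0, 2, 5⟩, ⟨-7072, 7072, 10000⟩] (pt [T, x]))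
    (hS : Sv T x ≤ 1 / 8) (hg : 0 ≤ g) (hlo : glo (yv T x) ≤ g) (hhi : g ≤ ghi (yv T x))
    (blo : 4 / 5 ≤ glo (yv T x)) (bhi : 3 / 7 ≤ ghi (yv T x)) :
    0 ≤ Bv T g := by
  have hD := Dp_pos T
  have kHi : pHi.eval (pt [T, x]) = ((194400 : ℤ) : ℝ) * ghi (yv T x) := by
    rw [ev_pHi]; norm_num
  have kLo : pLo.eval (pt [T, x]) = ((194400 : ℤ) : ℝ) * glo (yv T x) := by
    rw [ev_pLo]; norm_num
  refine le_trans ?_ (Bv_anti (by linarith) hhi)
  have h := first_alt cV2n hb hS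
  simp [K0, ev_nB 194400 pHi T x _ kHi] at h
  nlinarith [h, hD]
theorem v2_bound {T x g : ℝ} (hb : BoxMem [⟨0, 2, 5⟩, ⟨-7072, 7072, 10000⟩] (pt [T, x]))
    (hS : Sv T x ≤ 1 / 8) (hg : 0 ≤ g) (hlo : glo (yv T x) ≤ g) (hhi : g ≤ ghi (yv T x))
    (blo : 4 / 5 ≤ glo (yv T x)) (bhi : 3 / 7 ≤ ghi (yv T x)) :
    Bv T g ≤ Sv T x * (851 / 200 + 93 / 10 * Sv T x + 73 / 2 * Sv T x ^ 2) -
      (196 / 25 + 15 * Sv T x + 70 * Sv T x ^ 2) * Cv T x := by
  have hD := Dp_pos T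
  have kHi : pHi.eval (pt [T, x]) = ((194400 : ℤ) : ℝ) * ghi (yv T x) := by
    rw [ev_pHi]; norm_num
  have kLo : pLo.eval (pt [T, x]) = ((194400 : ℤ) : ℝ) * glo (yv T x) := by
    rw [ev_pLo]; norm_num
  refine le_trans (Bv_anti (by linarith) hlo) ?_
  have h := first_alt cV2 hb hS
  simp [v2, ev_pS, ev_pC, ev_pD, K0, ev_nB 194400 pLo T x _ kLo] at h
  have hpos : 0 < Dp T ^ 7 := by positivity
  nlinarith [h, hpos]
theorem v3_bound {T x g : ℝ} (hb : BoxMem [⟨0, 2, 5⟩, ⟨-7072, 7072, 10000⟩] (pt [T, x]))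
    (hS : Sv T x ≤ 1 / 8) (hg : 0 ≤ g) (hlo : glo (yv T x) ≤ g) (hhi : g ≤ ghi (yv T x))
    (blo : 4 / 5 ≤ glo (yv T x)) (bhi : 3 / 7 ≤ ghi (yv T x)) :
    Sv T x * (1493 / 100 + 18 * Sv T x + 44 * Sv T x ^ 2) -
      (1369 / 100 + 24 * Sv T x + 130 * Sv T x ^ 2) * Cv T x ≤ Lv T g := by
  have hD := Dp_pos T
  have kHi : pHi.eval (pt [T, x]) = ((194400 : ℤ) : ℝ) * ghi (yv T x) := by
    rw [ev_pHi]; norm_num
  have kLo : pLo.eval (pt [T, x]) = ((194400 : ℤ) : ℝ) * glo (yv T x) := by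
    rw [ev_pLo]; norm_num
  refine le_trans ?_ (Lv_anti (by linarith) hhi)
  have h := first_alt cV3 hb hS
  simp [v3, ev_pS, ev_pC, ev_pD, K0, ev_nL 194400 pHi T x _ kHi] at h
  have hpos : 0 < Dp T ^ 7 := by positivity
  nlinarith [h, hpos]
theorem vA_bound {T x g : ℝ} (hb : BoxMem [⟨0, 2, 5⟩, ⟨-7072, 7072, 10000⟩] (pt [T, x]))
    (hS : Sv T x ≤ 1 / 8) (hg : 0 ≤ g) (hlo : glo (yv T x) ≤ g) (hhi : g ≤ ghi (yv T x))
    (blo : 4 / 5 ≤ glo (yv T x)) (bhi : 3 / 7 ≤ ghi (yv T x)) :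
    1 - g ^ 2 / Dp T ≤ 151 / 100 * Sv T x := by
  have hD := Dp_pos T
  have kHi : pHi.eval (pt [T, x]) = ((194400 : ℤ) : ℝ) * ghi (yv T x) := by
    rw [ev_pHi]; norm_num
  have kLo : pLo.eval (pt [T, x]) = ((194400 : ℤ) : ℝ) * glo (yv T x) := by
    rw [ev_pLo]; norm_num
  have h := first_alt cVA hb hS
  simp [vA, ev_pS, ev_pD, ev_pLo, K0] at h
  have h2 : glo (yv T x) ^ 2 ≤ g ^ 2 := pow_le_pow_left₀ (by linarith) hlo 2
  have h3 : glo (yv T x) ^ 2 / Dp T ≤ g ^ 2 / Dp T := by gcongr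
  have h4 : glo (yv T x) ^ 2 / Dp T * Dp T = glo (yv T x) ^ 2 := div_mul_cancel₀ _ hD.ne'
  have hpos : 0 < Dp T ^ 2 := by positivity
  nlinarith [h, hpos, h3, h4]
theorem vB_bound {T x g : ℝ} (hb : BoxMem [⟨0, 2, 5⟩, ⟨-7072, 7072, 10000⟩] (pt [T, x]))
    (hS : Sv T x ≤ 1 / 8) (hg : 0 ≤ g) (hlo : glo (yv T x) ≤ g) (hhi : g ≤ ghi (yv T x))
    (blo : 4 / 5 ≤ glo (yv T x)) (bhi : 3 / 7 ≤ ghi (yv T x)) :
    1 - g / Dp T ≤ 111 / 100 * Sv T x := by
  have hD := Dp_pos T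
  have kHi : pHi.eval (pt [T, x]) = ((194400 : ℤ) : ℝ) * ghi (yv T x) := by
    rw [ev_pHi]; norm_num
  have kLo : pLo.eval (pt [T, x]) = ((194400 : ℤ) : ℝ) * glo (yv T x) := by
    rw [ev_pLo]; norm_num
  have h := first_alt cVB hb hS
  simp [vB, ev_pS, ev_pD, ev_pLo, K0] at h
  have h3 : glo (yv T x) / Dp T ≤ g / Dp T := by gcongr
  have h4 : glo (yv T x) / Dp T * Dp T = glo (yv T x) := div_mul_cancel₀ _ hD.ne'
  have hpos : 0 < Dp T ^ 2 := by positivity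
  nlinarith [h, hpos, h3, h4]
theorem vC_bound {T x g : ℝ} (hb : BoxMem [⟨0, 2, 5⟩, ⟨-7072, 7072, 10000⟩] (pt [T, x]))
    (hS : Sv T x ≤ 1 / 8) (hg : 0 ≤ g) (hlo : glo (yv T x) ≤ g) (hhi : g ≤ ghi (yv T x))
    (blo : 4 / 5 ≤ glo (yv T x)) (bhi : 3 / 7 ≤ ghi (yv T x)) :
    3 / 2 * (1 - 1 / Dp T) ≤ 26 / 25 * Sv T x := by
  have hD := Dp_pos T
  have kHi : pHi.eval (pt [T, x]) = ((194400 : ℤ) : ℝ) * ghi (yv T x) := by
    rw [ev_pHi]; norm_num
  have kLo : pLo.eval (pt [T, x]) = ((194400 : ℤ) : ℝ) * glo (yv T x) := by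
    rw [ev_pLo]; norm_num
  have h := first_alt cVC hb hS
  simp [vC, ev_pS, ev_pD, eT] at h
  have h4 : 1 / Dp T * Dp T = 1 := div_mul_cancel₀ _ hD.ne'
  have h5 : T ^ 2 = Dp T - 1 := by unfold Dp; ring
  rw [h5] at h
  have hpos : 0 < Dp T ^ 2 := by positivity
  nlinarith [h, hpos, h4]
theorem boundV : BoundV := by
  intro v hv hS
  obtain ⟨T, x, g, hT0, hT1, hxl, hxu, hy0, hy1, hg0, hg1, hg3, eS, eC, eF, eB, eL, eA, eB1, eB2⟩ :=
    param2 hv
  rw [eS] at hS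
  have hT : T ≤ 2 / 5 := T_small hT0 hT1 hxl hxu hy1 hS
  have hb := boxV hT0 hT hxl hxu
  have hyS : yv T x ≤ 3 / 10 := yv_small hT0 hT hxl
  have hD := Dp_pos T
  have hD1 : 1 ≤ Dp T := by unfold Dp; nlinarith
  have hhi : g ≤ ghi (yv T x) := le_ghi hy0 hy1 hg0 hg3
  have hlo : glo (yv T x) ≤ g := glo_le hy0 hyS hg0 hg3
  have bhi := ghi_lo hy0 hy1
  have blo := glo_lo hy0 hyS
  rw [eS, eC, eF, eB, eL, eA, eB1, eB2]
  refine ⟨v1_bound hb hS hg0 hlo hhi blo bhi, v2n_bound hb hS hg0 hlo hhi blo bhi,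
    v2_bound hb hS hg0 hlo hhi blo bhi, v3_bound hb hS hg0 hlo hhi blo bhi,
    vA_bound hb hS hg0 hlo hhi blo bhi, vB_bound hb hS hg0 hlo hhi blo bhi,
    vC_bound hb hS hg0 hlo hhi blo bhi, ?_, ?_, ?_⟩
  · have : g ^ 2 / Dp T ≤ 1 := by rw [div_le_one hD]; nlinarith
    linarith
  · have : g / Dp T ≤ 1 := by rw [div_le_one hD]; linarith
    linarith
  · have : 1 / Dp T ≤ 1 := by rw [div_le_one hD]; exact hD1
    linarith

/-- The right side of `BoundU` without the `min` term. -/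
noncomputable def Q0 (s : ℝ) : ℝ := 10 * s + s ^ 2 * (349 / 100 + 6 / 5 * s + 2 * s ^ 3)

theorem ev_q0 (T x : ℝ) : q0.eval (pt [T, x]) = 12800 * Dp T ^ 10 * Q0 (Sv T x) := by
  simp [q0, ev_pS, ev_pD, Q0]; ring

theorem u0_spec {K : ℤ} (hK : 0 < K) {G : Ex} {T x g : ℝ} (hG : G.eval (pt [T, x]) = K * g)
    (h : 0 ≤ (u0 K G).eval (pt [T, x])) : Q0 (Sv T x) ≤ Fv T g := by
  simp [u0, ev_nF K G T x g hG, ev_q0, ev_pD] at h
  have : 0 < (12800 : ℝ) * (K : ℝ) ^ 2 * Dp T ^ 10 := by have := Dp_pos T; positivity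
  nlinarith

theorem u1_spec {K : ℤ} (hK : 0 < K) {G : Ex} {T x g : ℝ} (hG : G.eval (pt [T, x]) = K * g)
    (h : 0 ≤ (u1 K G).eval (pt [T, x])) :
    Q0 (Sv T x) + 33 / 2 * Sv T x ^ 2 * Cv T x ≤ Fv T g := by
  simp [u1, u0, ev_nF K G T x g hG, ev_q0, ev_pD, ev_pS, ev_pC] at h
  have : 0 < (12800 : ℝ) * (K : ℝ) ^ 2 * Dp T ^ 10 := by have := Dp_pos T; positivity
  nlinarith

theorem negC_spec {T x : ℝ} (h : 0 ≤ negC.eval (pt [T, x])) : Cv T x ≤ 0 := by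
  simp [negC, ev_pC] at h
  have : 0 < Dp T ^ 3 := by have := Dp_pos T; positivity
  nlinarith

theorem finish {s c F : ℝ}
    (h : Q0 s ≤ F ∨ (Q0 s + 33 / 2 * s ^ 2 * c ≤ F ∧ c ≤ 0)) :
    10 * s + s ^ 2 * (349 / 100 + 6 / 5 * s + 2 * s ^ 3) + 33 / 2 * s ^ 2 * min c 0 ≤ F := by
  rcases h with h | ⟨h, hc⟩
  · have : s ^ 2 * min c 0 ≤ 0 :=
      mul_nonpos_of_nonneg_of_nonpos (sq_nonneg s) (min_le_right c 0)
    rw [Q0] at h; linarith
  · rw [min_eq_left hc]; rw [Q0] at h; linarith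

theorem chord_case {T x g : ℝ} (a b ga gb K : ℤ) (tr : ACut)
    (hc : checkAlt 2 [[u0 K (pChord a b ga gb)], [u1 K (pChord a b ga gb), negC], [exLo a], [exHi b]]
      tr [⟨0, 3, 2⟩, ⟨-7072, 7072, 10000⟩] = true)
    (hK : K = 10000 * (b - a)) (hab : a < b) (h0 : 0 ≤ ga) (h0' : 3700 ≤ gb) (hgab : gb ≤ ga)
    (h1 : ga ^ 3 * 100 ≤ 1000000000000 * (100 - a))
    (h2 : gb ^ 3 * 100 ≤ 1000000000000 * (100 - b))
    (hb : BoxMem [⟨0, 3, 2⟩, ⟨-7072, 7072, 10000⟩] (pt [T, x]))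
    (hlo : (a : ℝ) / 100 ≤ yv T x) (hhi : yv T x ≤ (b : ℝ) / 100)
    (hg : 0 ≤ g) (hg3 : g ^ 3 = 1 - yv T x) :
    Q0 (Sv T x) ≤ Fv T g ∨ (Q0 (Sv T x) + 33 / 2 * Sv T x ^ 2 * Cv T x ≤ Fv T g ∧ Cv T x ≤ 0) := by
  obtain ⟨c, hcdef⟩ : ∃ c : ℝ, c = gchord ((a : ℝ) / 100) ((b : ℝ) / 100) ((ga : ℝ) / 10000)
      ((gb : ℝ) / 10000) (yv T x) := ⟨_, rfl⟩
  have hab' : (a : ℝ) < b := by exact_mod_cast hab
  have h0r : (0 : ℝ) ≤ ga := by exact_mod_cast h0
  have h0r' : (3700 : ℝ) ≤ gb := by exact_mod_cast h0'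
  have hgabr : (gb : ℝ) ≤ ga := by exact_mod_cast hgab
  have h1r : (ga : ℝ) ^ 3 * 100 ≤ 1000000000000 * (100 - a) := by exact_mod_cast h1
  have h2r : (gb : ℝ) ^ 3 * 100 ≤ 1000000000000 * (100 - b) := by exact_mod_cast h2
  have hcg : c ≤ g := by
    rw [hcdef]
    exact gchord_le (by linarith) hlo hhi (by positivity) (by linarith)
      (by rw [div_pow]; linarith) (by rw [div_pow]; linarith) hg hg3
  have hne : (b : ℝ) - a ≠ 0 := by linarith
  have hcb : 3700 / 10000 ≤ c := by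
    have e : c = (ga : ℝ) / 10000 * ((b - 100 * yv T x) / (b - a)) +
        (gb : ℝ) / 10000 * ((100 * yv T x - a) / (b - a)) := by
      rw [hcdef, gchord]; field_simp; ring
    have p1 : 0 ≤ ((b : ℝ) - 100 * yv T x) / (b - a) := div_nonneg (by linarith) (by linarith)
    have p2 : 0 ≤ (100 * yv T x - a) / ((b : ℝ) - a) := div_nonneg (by linarith) (by linarith)
    have p3 : ((b : ℝ) - 100 * yv T x) / (b - a) + (100 * yv T x - a) / (b - a) = 1 := by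
      field_simp; ring
    nlinarith
  have hG : (pChord a b ga gb).eval (pt [T, x]) = (K : ℝ) * c := by
    rw [hcdef, hK, gchord]; simp [pChord, ev_pY]; field_simp; ring
  have hKpos : 0 < K := by omega
  have hF : Fv T c ≤ Fv T g := Fv_mono (by linarith) hcg
  obtain ⟨ps, hm, hp⟩ := checkAlt_sound _ _ _ _ _ hc hb
  simp only [List.mem_cons, List.not_mem_nil, or_false] at hm
  rcases hm with rfl | rfl | rfl | rfl
  · exact Or.inl ((u0_spec hKpos hG (hp _ (by simp))).trans hF)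
  · exact Or.inr ⟨(u1_spec hKpos hG (hp _ (by simp))).trans hF, negC_spec (hp _ (by simp))⟩
  · have := hp _ (List.mem_singleton_self (exLo a))
    simp [exLo, ev_pY] at this; linarith
  · have := hp _ (List.mem_singleton_self (exHi b))
    simp [exHi, ev_pY] at this; linarith

theorem boundU : BoundU := by
  intro u hu
  obtain ⟨T, x, g, hT0, hT1, hxl, hxu, hy0, hy1, hg0, hg1, hg3, eS, eC, eF, eB, eL, eA, eB1, eB2⟩ :=
    param2 hu
  rw [eS, eC, eF]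
  apply finish
  have hb := boxU hT0 hT1 hxl hxu
  rcases le_or_gt (yv T x) (3 / 10) with h | h
  · have hlo : glo (yv T x) ≤ g := glo_le hy0 h hg0 hg3
    have blo := glo_lo hy0 h
    have kLo : pLo.eval (pt [T, x]) = ((K0 : ℤ) : ℝ) * glo (yv T x) := by
      rw [ev_pLo]; norm_num [K0]
    have hK : (0 : ℤ) < K0 := by norm_num [K0]
    have hF : Fv T (glo (yv T x)) ≤ Fv T g := Fv_mono (by linarith) hlo
    obtain ⟨ps, hm, hp⟩ := checkAlt_sound _ _ _ _ _ cUenv hb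
    simp only [List.mem_cons, List.not_mem_nil, or_false] at hm
    rcases hm with rfl | rfl | rfl
    · exact Or.inl ((u0_spec hK kLo (hp _ (by simp))).trans hF)
    · exact Or.inr ⟨(u1_spec hK kLo (hp _ (by simp))).trans hF, negC_spec (hp _ (by simp))⟩
    · have := hp _ (List.mem_singleton_self (exHi 30))
      simp [exHi, ev_pY] at this; linarith
  rcases le_or_gt (yv T x) (40 / 100) with h40 | h40
  · exact chord_case 30 40 8879 8434 _ _ cU30 (by norm_num) (by norm_num) (by norm_num) (by norm_num)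
      (by norm_num) (by norm_num) (by norm_num) hb (by push_cast; linarith) (by push_cast; linarith)
      hg0 hg3
  rcases le_or_gt (yv T x) (50 / 100) with h50 | h50
  · exact chord_case 40 50 8434 7937 _ _ cU40 (by norm_num) (by norm_num) (by norm_num) (by norm_num)
      (by norm_num) (by norm_num) (by norm_num) hb (by push_cast; linarith) (by push_cast; linarith)
      hg0 hg3
  rcases le_or_gt (yv T x) (58 / 100) with h58 | h58
  · exact chord_case 50 58 7937 7488 _ _ cU50 (by norm_num) (by norm_num) (by norm_num) (by norm_num)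
      (by norm_num) (by norm_num) (by norm_num) hb (by push_cast; linarith) (by push_cast; linarith)
      hg0 hg3
  rcases le_or_gt (yv T x) (64 / 100) with h64 | h64
  · exact chord_case 58 64 7488 7113 _ _ cU58 (by norm_num) (by norm_num) (by norm_num) (by norm_num)
      (by norm_num) (by norm_num) (by norm_num) hb (by push_cast; linarith) (by push_cast; linarith)
      hg0 hg3
  rcases le_or_gt (yv T x) (70 / 100) with h70 | h70
  · exact chord_case 64 70 7113 6694 _ _ cU64 (by norm_num) (by norm_num) (by norm_num) (by norm_num)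
      (by norm_num) (by norm_num) (by norm_num) hb (by push_cast; linarith) (by push_cast; linarith)
      hg0 hg3
  rcases le_or_gt (yv T x) (74 / 100) with h74 | h74
  · exact chord_case 70 74 6694 6382 _ _ cU70 (by norm_num) (by norm_num) (by norm_num) (by norm_num)
      (by norm_num) (by norm_num) (by norm_num) hb (by push_cast; linarith) (by push_cast; linarith)
      hg0 hg3
  rcases le_or_gt (yv T x) (78 / 100) with h78 | h78
  · exact chord_case 74 78 6382 6036 _ _ cU74 (by norm_num) (by norm_num) (by norm_num) (by norm_num)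
      (by norm_num) (by norm_num) (by norm_num) hb (by push_cast; linarith) (by push_cast; linarith)
      hg0 hg3
  rcases le_or_gt (yv T x) (84 / 100) with h84 | h84
  · exact chord_case 78 84 6036 5428 _ _ cU78 (by norm_num) (by norm_num) (by norm_num) (by norm_num)
      (by norm_num) (by norm_num) (by norm_num) hb (by push_cast; linarith) (by push_cast; linarith)
      hg0 hg3
  rcases le_or_gt (yv T x) (94 / 100) with h94 | h94
  · exact chord_case 84 94 5428 3914 _ _ cU84 (by norm_num) (by norm_num) (by norm_num) (by norm_num)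
      (by norm_num) (by norm_num) (by norm_num) hb (by push_cast; linarith) (by push_cast; linarith)
      hg0 hg3
  obtain ⟨ps, hm, hp⟩ := checkAlt_sound _ _ _ _ _ cUtop hb
  have hF := Fv_min T g
  have hD := Dp_pos T
  have e : 2350 * Dp T - 3250 = 47 * ((50 + (-63 - 289 / 47) / Dp T) * Dp T) := by
    field_simp; ring
  have hpos : 0 < Dp T ^ 10 := by positivity
  simp only [List.mem_cons, List.not_mem_nil, or_false] at hm
  rcases hm with rfl | rfl | rfl | rfl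
  · left
    have hh := hp _ (List.mem_singleton_self uMin0)
    simp [uMin0, ev_q0, ev_pD] at hh
    rw [e] at hh
    nlinarith
  · right
    refine ⟨?_, negC_spec (hp _ (by simp))⟩
    have hh := hp uMin1 (by simp)
    simp [uMin1, uMin0, ev_q0, ev_pD, ev_pS, ev_pC] at hh
    rw [e] at hh
    nlinarith
  · have := hp _ (List.mem_singleton_self (exLo 94))
    simp [exLo, ev_pY] at this; linarith
  · have := hp _ (List.mem_singleton_self (exHi 100))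
    simp [exHi, ev_pY] at this; linarith

end Vale.Agent.P154.Neg3
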