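import Vale.Agent.P154.Neg3.Polys

/-!
Box certificates (generated).
-/

namespace Vale.Agent.P154.Neg3

open PolyCheck

theorem cV1 : checkAlt 2
    [[v1], [exS]]
    (.cut 0 (.leaf 0) (.cut 0 (.cut 1 (.cut 0 (.leaf 0) (.cut 0 (.leaf 0) (.cut 1 (.cut 0 (.leaf 0) (.cut 0 (.cut 1 (.leaf 0) (.cut 0 (.cut 0 (.leaf 0) (.cut 1 (.leaf 0) (.leaf 1))) (.cut 0 (.cut 1 (.leaf 0) (.leaf 1)) (.cut 1 (.cut 0 (.cut 0 (.cut 1 (.leaf 0) (.leaf 1)) (.cut 1 (.leaf 0) (.leaf 1))) (.cut 0 (.cut 1 (.leaf 0) (.leaf 1)) (.cut 1 (.leaf 0) (.leaf 1)))) (.leaf 1))))) (.cut 1 (.cut 0 (.leaf 0) (.cut 0 (.leaf 0) (.cut 1 (.leaf 0) (.cut 0 (.cut 0 (.cut 1 (.leaf 0) (.leaf 1)) (.cut 1 (.leaf 0) (.leaf 1))) (.cut 0 (.cut 1 (.leaf 0) (.leaf 1)) (.cut 1 (.leaf 0) (.leaf 1))))))) (.leaf 1)))) (.cut 0 (.leaf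 0) (.leaf 1))))) (.leaf 0)) (.cut 1 (.cut 0 (.cut 0 (.cut 1 (.cut 0 (.cut 0 (.cut 1 (.cut 0 (.cut 0 (.cut 1 (.leaf 0) (.leaf 1)) (.cut 1 (.leaf 0) (.leaf 1))) (.cut 0 (.cut 1 (.leaf 0) (.leaf 1)) (.cut 1 (.leaf 0) (.leaf 1)))) (.leaf 1)) (.cut 1 (.cut 0 (.cut 0 (.cut 1 (.leaf 0) (.leaf 1)) (.leaf 1)) (.leaf 1)) (.leaf 1))) (.leaf 1)) (.leaf 1)) (.leaf 1)) (.leaf 1)) (.leaf 1))))
    [⟨0, 2, 5⟩, ⟨-7072, 7072, 10000⟩] = true := by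
  decide +kernel

theorem cV2 : checkAlt 2
    [[v2], [exS]]
    (.cut 0 (.leaf 0) (.cut 0 (.cut 1 (.leaf 0) (.cut 0 (.cut 0 (.leaf 0) (.cut 1 (.leaf 0) (.cut 0 (.leaf 0) (.cut 0 (.leaf 0) (.cut 1 (.leaf 0) (.cut 0 (.cut 0 (.leaf 0) (.cut 1 (.leaf 0) (.cut 0 (.cut 0 (.cut 1 (.leaf 0) (.leaf 1)) (.cut 1 (.leaf 0) (.leaf 1))) (.cut 0 (.cut 1 (.leaf 0) (.leaf 1)) (.leaf 1))))) (.cut 0 (.cut 1 (.leaf 0) (.leaf 1)) (.cut 1 (.leaf 0) (.leaf 1))))))))) (.cut 0 (.cut 1 (.leaf 0) (.cut 0 (.cut 0 (.cut 1 (.leaf 0) (.leaf 1)) (.leaf 1)) (.leaf 1))) (.leaf 1)))) (.cut 1 (.cut 0 (.cut 0 (.leaf 0) (.leaf 1)) (.leaf 1)) (.leaf 1))))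
    [⟨0, 2, 5⟩, ⟨-7072, 7072, 10000⟩] = true := by
  decide +kernel

theorem cV2n : checkAlt 2
    [[nB K0 pHi], [exS]]
    (.leaf 0)
    [⟨0, 2, 5⟩, ⟨-7072, 7072, 10000⟩] = true := by
  decide +kernel

theorem cV3 : checkAlt 2
    [[v3], [exS]]
    (.cut 0 (.leaf 0) (.leaf 0))
    [⟨0, 2, 5⟩, ⟨-7072, 7072, 10000⟩] = true := by
  decide +kernel

theorem cVA : checkAlt 2
    [[vA], [exS]]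
    (.cut 0 (.leaf 0) (.cut 0 (.leaf 0) (.cut 1 (.cut 0 (.cut 0 (.cut 1 (.cut 0 (.cut 0 (.leaf 0) (.cut 1 (.cut 0 (.leaf 0) (.leaf 1)) (.leaf 0))) (.leaf 1)) (.leaf 0)) (.leaf 1)) (.leaf 1)) (.leaf 0))))
    [⟨0, 2, 5⟩, ⟨-7072, 7072, 10000⟩] = true := by
  decide +kernel

theorem cVB : checkAlt 2
    [[vB], [exS]]
    (.cut 0 (.leaf 0) (.cut 0 (.leaf 0) (.cut 1 (.cut 0 (.cut 0 (.cut 1 (.cut 0 (.cut 0 (.leaf 0) (.cut 1 (.cut 0 (.cut 0 (.leaf 0) (.leaf 1)) (.leaf 1)) (.leaf 0))) (.leaf 1)) (.leaf 0)) (.leaf 1)) (.leaf 1)) (.leaf 0))))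
    [⟨0, 2, 5⟩, ⟨-7072, 7072, 10000⟩] = true := by
  decide +kernel

theorem cVC : checkAlt 2
    [[vC], [exS]]
    (.cut 0 (.leaf 0) (.cut 0 (.leaf 0) (.cut 1 (.cut 0 (.cut 0 (.cut 1 (.cut 0 (.cut 0 (.leaf 0) (.cut 1 (.cut 0 (.leaf 0) (.leaf 1)) (.leaf 0))) (.leaf 1)) (.leaf 0)) (.leaf 1)) (.leaf 1)) (.leaf 0))))
    [⟨0, 2, 5⟩, ⟨-7072, 7072, 10000⟩] = true := by
  decide +kernel

theorem cVout : checkAlt 2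
    [[exS], [exHi 100]]
    (.cut 0 (.leaf 0) (.cut 0 (.leaf 0) (.cut 1 (.leaf 1) (.leaf 0))))
    [⟨4, 15, 10⟩, ⟨-7072, 7072, 10000⟩] = true := by
  decide +kernel

end Vale.Agent.P154.Neg3
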