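import Vale.Agent.P154.Neg3.Param

/-!
Polynomial enclosures of `g = (1 - y) ^ (1/3)`.
-/

namespace Vale.Agent.P154.Neg3

/-- Upper enclosure. -/
noncomputable def ghi (y : ℝ) : ℝ := 1 - y / 3 - y ^ 2 / 9 - 5 * y ^ 3 / 81 - 10 * y ^ 4 / 243

/-- Lower enclosure, for `y ≤ 3/10`. -/
noncomputable def glo (y : ℝ) : ℝ := ghi y - y ^ 5 / 25

/-- A chord of the cube root through rational points below it. -/
noncomputable def gchord (a b ga gb y : ℝ) : ℝ := ga + (gb - ga) / (b - a) * (y - a)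

theorem le_ghi {y g : ℝ} (hy : 0 ≤ y) (hy1 : y ≤ 1) (hg : 0 ≤ g) (h : g ^ 3 = 1 - y) :
    g ≤ ghi y := by
  have p : ∀ n : ℕ, y ^ n ≤ 1 := fun n => pow_le_one₀ hy hy1
  have hpos : 0 ≤ ghi y := by
    unfold ghi; linarith [p 2, p 3, p 4, hy1]
  have key : 1 - y ≤ ghi y ^ 3 := by
    have e : ghi y ^ 3 - (1 - y) = y ^ 5 * (22 / 243 + 22 / 2187 * y - 55 / 19683 * y ^ 3
        - 1925 / 531441 * y ^ 4 - 550 / 531441 * y ^ 5 - 500 / 1594323 * y ^ 6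
        - 1000 / 14348907 * y ^ 7) := by
      unfold ghi; ring
    have : 0 ≤ y ^ 5 * (22 / 243 + 22 / 2187 * y - 55 / 19683 * y ^ 3
        - 1925 / 531441 * y ^ 4 - 550 / 531441 * y ^ 5 - 500 / 1594323 * y ^ 6
        - 1000 / 14348907 * y ^ 7) :=
      mul_nonneg (pow_nonneg hy 5) (by linarith [p 3, p 4, p 5, p 6, p 7])
    linarith
  exact le_of_pow_le_pow_left₀ (by norm_num) hpos (h ▸ key)

theorem glo_le {y g : ℝ} (hy : 0 ≤ y) (hy1 : y ≤ 3 / 10) (hg : 0 ≤ g) (h : g ^ 3 = 1 - y) :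
    glo y ≤ g := by
  have p : ∀ n : ℕ, y ^ n ≤ (3 / 10) ^ n := fun n => pow_le_pow_left₀ hy hy1 n
  have q : ∀ n : ℕ, 0 ≤ y ^ n := fun n => pow_nonneg hy n
  have key : glo y ^ 3 ≤ 1 - y := by
    have e : glo y ^ 3 - (1 - y) = y ^ 5 * (-(179 / 6075) + 4924 / 54675 * y + 1 / 75 * y ^ 2
        + 1541 / 492075 * y ^ 3 - 2198 / 13286025 * y ^ 4 - 389677 / 332150625 * y ^ 5
        - 3455948 / 996451875 * y ^ 6 - 10875469 / 8968066875 * y ^ 7 - 1229 / 2460375 * y ^ 8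
        - 2 / 10125 * y ^ 9 - 1 / 15625 * y ^ 10) := by
      unfold glo ghi; ring
    have : y ^ 5 * (-(179 / 6075) + 4924 / 54675 * y + 1 / 75 * y ^ 2
        + 1541 / 492075 * y ^ 3 - 2198 / 13286025 * y ^ 4 - 389677 / 332150625 * y ^ 5
        - 3455948 / 996451875 * y ^ 6 - 10875469 / 8968066875 * y ^ 7 - 1229 / 2460375 * y ^ 8
        - 2 / 10125 * y ^ 9 - 1 / 15625 * y ^ 10) ≤ 0 :=
      mul_nonpos_of_nonneg_of_nonpos (q 5) (by
        linarith [p 2, p 3, q 4, q 5, q 6, q 7, q 8, q 9, q 10])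
    linarith
  exact le_of_pow_le_pow_left₀ (by norm_num) hg (h.symm ▸ key)

theorem gchord_le {a b ga gb y g : ℝ} (hab : a < b) (ha : a ≤ y) (hb : y ≤ b) (h0 : 0 ≤ ga)
    (h0' : 0 ≤ gb) (h1 : ga ^ 3 ≤ 1 - a) (h2 : gb ^ 3 ≤ 1 - b) (hg : 0 ≤ g)
    (h : g ^ 3 = 1 - y) : gchord a b ga gb y ≤ g := by
  obtain ⟨t, ht, ht1, hy⟩ : ∃ t : ℝ, 0 ≤ t ∧ t ≤ 1 ∧ y = (1 - t) * a + t * b := by
    refine ⟨(y - a) / (b - a), div_nonneg (by linarith) (by linarith), ?_, ?_⟩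
    · rw [div_le_one (by linarith)]; linarith
    · have : (y - a) / (b - a) * (b - a) = y - a := div_mul_cancel₀ _ (by linarith)
      linear_combination -this
  have e : gchord a b ga gb y = (1 - t) * ga + t * gb := by
    have hne : b - a ≠ 0 := by linarith
    rw [gchord, hy]; field_simp; ring
  rw [e]
  refine le_of_pow_le_pow_left₀ (by norm_num : (3 : ℕ) ≠ 0) hg ?_
  have conv : ((1 - t) * ga + t * gb) ^ 3 ≤ (1 - t) * ga ^ 3 + t * gb ^ 3 := by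
    have hd : (1 - t) * ga ^ 3 + t * gb ^ 3 - ((1 - t) * ga + t * gb) ^ 3 =
        t * (1 - t) * (ga - gb) ^ 2 * ((2 - t) * ga + (1 + t) * gb) := by ring
    have : 0 ≤ t * (1 - t) * (ga - gb) ^ 2 * ((2 - t) * ga + (1 + t) * gb) := by
      have := mul_nonneg (by linarith : (0 : ℝ) ≤ 2 - t) h0
      have := mul_nonneg (by linarith : (0 : ℝ) ≤ 1 + t) h0'
      have : 0 ≤ 1 - t := by linarith
      positivity
    linarith
  have m1 := mul_le_mul_of_nonneg_left h1 (by linarith : (0 : ℝ) ≤ 1 - t)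
  have m2 := mul_le_mul_of_nonneg_left h2 ht
  rw [h, hy]; linarith

theorem Fv_mono {T g g' : ℝ} (h : 34 ≤ 47 * (g + g')) (hle : g' ≤ g) : Fv T g' ≤ Fv T g := by
  have hD := Dp_pos T
  unfold Fv
  gcongr 50 + ?_ / _
  nlinarith [mul_nonneg (sub_nonneg.2 hle) (sub_nonneg.2 h)]

theorem Fv_min (T g : ℝ) : 50 + (-63 - 289 / 47) / Dp T ≤ Fv T g := by
  have hD := Dp_pos T
  unfold Fv
  gcongr 50 + ?_ / _
  nlinarith [sq_nonneg (47 * g - 17)]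

theorem Bv_anti {T g g' : ℝ} (h : 51 / 2 ≤ 47 * (g + g')) (hle : g' ≤ g) : Bv T g ≤ Bv T g' := by
  have hD := Dp_pos T
  unfold Bv
  gcongr -(103 / 4) + ?_ / _
  nlinarith [mul_nonneg (sub_nonneg.2 hle) (sub_nonneg.2 h)]

theorem Lv_anti {T g g' : ℝ} (h : 153 / 8 ≤ 47 * (g + g')) (hle : g' ≤ g) : Lv T g ≤ Lv T g' := by
  have hD := Dp_pos T
  unfold Lv
  gcongr -(121 / 16) + ?_ / _
  nlinarith [mul_nonneg (sub_nonneg.2 hle) (sub_nonneg.2 h)]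

end Vale.Agent.P154.Neg3
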