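import Vale.Agent.P154.Neg3.FinalPoly

/-!
P154: the closing inequality for the range `[-1/√8, 0)`.
-/

namespace Vale.Agent.P154.Neg3

open FinalPoly

/-- The cleared inequality is affine in `th`. -/
lemma gap_th (a ell eta de w th : ℝ) :
    gap a ell eta de w th =
      (1 - 8 * th) * gap a ell eta de w 0 + 8 * th * gap a ell eta de w (1 / 8) := by
  unfold gap den; ring

lemma gap_nonneg_th {a ell eta de w th : ℝ} (h0 : 0 ≤ gap a ell eta de w 0)
    (h8 : 0 ≤ gap a ell eta de w (1 / 8)) (hth : 0 ≤ th) (hth8 : th ≤ 1 / 8) :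
    0 ≤ gap a ell eta de w th := by
  rw [gap_th]
  exact add_nonneg (mul_nonneg (by linarith) h0) (mul_nonneg (by linarith) h8)

/-- The closing inequality. -/
theorem boundFinal : BoundFinal := by
  intro a ell eta th ha ha1 hell hell2 he1 he2 hdom hth hth8
  have hL : ell ≤ 177 / 500 := by nlinarith
  set bt := (1 - 2 * th) / 3 with hbt
  have hbt0 : 0 ≤ bt := by rw [hbt]; linarith
  have hm : 0 ≤ 1 - 8 * th := by linarith
  have hm' : 0 ≤ 8 * th := by linarith
  have hk : 0 ≤ 1 - th := by linarith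
  set P1 := (196 / 25 + 15 * (ell * a) ^ 2 + 70 * (ell * a) ^ 4) * (ell * a) with hP1
  set Q1 := bt * a ^ 2 * ((1369 / 100 + 24 * (ell * a) ^ 2 + 130 * (ell * a) ^ 4) * (ell * a))
  have hQ1 : 0 ≤ Q1 := by positivity
  have hden : ∀ x y, den a ell x bt = den a ell y bt + (x - y) * Q1 := fun x y => by
    simp only [den, Q1]; ring
  -- reduce to the cleared inequality
  suffices h : 0 < den a ell eta bt ∧ 0 ≤ gap a ell eta eta (min (eta * a ^ 3) 0) th by
    obtain ⟨hd, hg⟩ := h
    refine ⟨hd, ?_⟩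
    have : (1 - th) * psi a ell eta ^ 2 / (2 * den a ell eta bt) ≤ rhs a ell (min (eta * a ^ 3) 0) := by
      rw [div_le_iff₀ (by linarith)]
      unfold gap at hg
      rw [← hbt] at hg
      linarith
    unfold rhs at this
    linarith
  rcases le_or_gt 0 eta with hpos | hneg
  · have hd0 : 0 ≤ den a ell 0 bt - 4 := by
      have e : den a ell 0 bt - 4 = (1 - 8 * th) * (den a ell 0 ((1 - 2 * 0) / 3) - 4) +
          8 * th * (den a ell 0 ((1 - 2 * (1 / 8)) / 3) - 4) := by
        simp only [den, hbt]; ring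
      rw [e]
      exact add_nonneg (mul_nonneg hm (D00 ha ha1 hell hL)) (mul_nonneg hm' (D08 ha ha1 hell hL))
    rw [min_eq_right (mul_nonneg hpos (pow_nonneg ha 3))]
    refine ⟨by rw [hden eta 0]; linarith [mul_nonneg hpos hQ1], ?_⟩
    have e : gap a ell eta eta 0 th = (1 - eta) * gap a ell 0 0 0 th + eta * gap a ell 1 1 0 th +
        (1 - th) * eta * (1 - eta) * P1 ^ 2 := by
      simp only [gap, den, psi, hP1]; ring
    rw [e]
    have h0 := gap_nonneg_th (A00 ha ha1 hell hL) (A08 ha ha1 hell hL) hth hth8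
    have h1 := gap_nonneg_th (A10 ha ha1 hell hL) (A18 ha ha1 hell hL) hth hth8
    have : 0 ≤ 1 - eta := by linarith
    positivity
  · have hneg3 : eta * a ^ 3 ≤ 0 := mul_nonpos_of_nonpos_of_nonneg hneg.le (pow_nonneg ha 3)
    have hsmall : a ≤ 29 / 50 := by nlinarith
    rw [min_eq_left hneg3]
    have hd1 : 0 ≤ den a ell (-1) bt - 4 := by
      have e : den a ell (-1) bt - 4 = (1 - 8 * th) * (den a ell (-1) ((1 - 2 * 0) / 3) - 4) +
          8 * th * (den a ell (-1) ((1 - 2 * (1 / 8)) / 3) - 4) := by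
        simp only [den, hbt]; ring
      rw [e]
      exact add_nonneg (mul_nonneg hm (D10 ha hsmall hell hL))
        (mul_nonneg hm' (D18 ha hsmall hell hL))
    refine ⟨by rw [hden eta (-1)]; linarith [mul_nonneg (by linarith : (0 : ℝ) ≤ eta + 1) hQ1], ?_⟩
    -- the lower end of the interval of `eta`
    obtain ⟨e0, he0, he0', hR0, hG0⟩ : ∃ e0 : ℝ, e0 ≤ eta ∧ e0 < 0 ∧
        0 ≤ rhs a ell (e0 * a ^ 3) ∧ 0 ≤ gap a ell e0 (-1) (e0 * a ^ 3) th := by
      rcases le_or_gt a (1 / 2) with h2 | h2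
      · refine ⟨-1, he1, by norm_num, ?_, ?_⟩ <;> rw [neg_one_mul]
        · exact R1 ha h2 hell hL
        · exact gap_nonneg_th (B10 ha h2 hell hL) (B18 ha h2 hell hL) hth hth8
      · have h3 : 0 < a ^ 3 := by positivity
        set c := (3 * a ^ 2 - 1) / 2 with hc
        have hce : c / a ^ 3 * a ^ 3 = c := div_mul_cancel₀ _ h3.ne'
        have hcle : c / a ^ 3 ≤ eta := (div_le_iff₀ h3).2 hdom
        refine ⟨c / a ^ 3, hcle, hcle.trans_lt hneg, ?_, ?_⟩ <;> rw [hce]
        · exact Rc h2.le hsmall hell hL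
        · have hs : gapStar a ell th = (1 - 8 * th) * gapStar a ell 0 + 8 * th * gapStar a ell (1 / 8) := by
            simp only [gapStar, den]; ring
          have hs0 : 0 ≤ gapStar a ell th := by
            rw [hs]
            exact add_nonneg (mul_nonneg hm (B20 h2.le hsmall hell hL))
              (mul_nonneg hm' (B28 h2.le hsmall hell hL))
          have e : gapStar a ell th = a ^ 4 * gap a ell (c / a ^ 3) (-1) c th := by
            simp only [gapStar, gap, psi, ← hc]
            field_simp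
          rw [e] at hs0
          exact nonneg_of_mul_nonneg_right hs0 (by positivity)
    set mu := eta / e0 with hmu
    have hmu0 : 0 ≤ mu := div_nonneg_of_nonpos hneg.le he0'.le
    have hmu1 : mu ≤ 1 := (div_le_one_of_neg he0').2 he0
    have hμe : mu * e0 = eta := div_mul_cancel₀ _ he0'.ne
    have h0 := gap_nonneg_th (B00 ha hsmall hell hL) (B08 ha hsmall hell hL) hth hth8
    have hmu2 : 0 ≤ 1 - mu := by linarith
    have hR : 0 ≤ rhs a ell (eta * a ^ 3) := by
      have e : rhs a ell (eta * a ^ 3) = mu * rhs a ell (e0 * a ^ 3) + (1 - mu) * rhs a ell 0 := by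
        rw [← hμe]; simp only [rhs]; ring
      rw [e]
      exact add_nonneg (mul_nonneg hmu0 hR0) (mul_nonneg hmu2 (R0 ha ha1 hell hL))
    have hG : 0 ≤ gap a ell eta (-1) (eta * a ^ 3) th := by
      have e : gap a ell eta (-1) (eta * a ^ 3) th = mu * gap a ell e0 (-1) (e0 * a ^ 3) th +
          (1 - mu) * gap a ell 0 (-1) 0 th + (1 - th) * mu * (1 - mu) * e0 ^ 2 * P1 ^ 2 := by
        rw [← hμe]; simp only [gap, rhs, den, psi, hP1]; ring
      rw [e]
      positivity
    have e : gap a ell eta eta (eta * a ^ 3) th = gap a ell eta (-1) (eta * a ^ 3) th +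
        2 * ((eta + 1) * Q1) * rhs a ell (eta * a ^ 3) := by
      simp only [gap, ← hbt, hden eta (-1)]
      ring
    rw [e]
    have : 0 ≤ eta + 1 := by linarith
    positivity

end Vale.Agent.P154.Neg3
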