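import Vale.Agent.P154.Neg3.Basic

/-!
The numerical lemmas needed for the range `[-1/√8, 0)`.
-/

namespace Vale.Agent.P154.Neg3

/-- Lower bound on the whole simplex. -/
def BoundU : Prop :=
  ∀ u : Fin 3 → ℝ, Dev u →
    10 * S u + S u ^ 2 * (349 / 100 + 6 / 5 * S u + 2 * S u ^ 3) +
      33 / 2 * S u ^ 2 * min (C u) 0 ≤ F u

/-- Bounds on the deviations that have passed one edge. -/
def BoundV : Prop :=
  ∀ v : Fin 3 → ℝ, Dev v → S v ≤ 1 / 8 →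
    F v ≤ 10 * S v + 81 / 20 * S v ^ 2 ∧
    0 ≤ B v ∧
    B v ≤ S v * (851 / 200 + 93 / 10 * S v + 73 / 2 * S v ^ 2) -
      (196 / 25 + 15 * S v + 70 * S v ^ 2) * C v ∧
    S v * (1493 / 100 + 18 * S v + 44 * S v ^ 2) -
      (1369 / 100 + 24 * S v + 130 * S v ^ 2) * C v ≤ L3 v ∧
    tA v ≤ 151 / 100 * S v ∧ tB1 v ≤ 111 / 100 * S v ∧ tB2 v ≤ 26 / 25 * S v ∧
    0 ≤ tA v ∧ 0 ≤ tB1 v ∧ 0 ≤ tB2 v

/-- `ψ` after factoring out `S`. -/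
noncomputable def psi (a ell eta : ℝ) : ℝ :=
  851 / 200 + 93 / 10 * (ell * a) ^ 2 + 73 / 2 * (ell * a) ^ 4 +
    (196 / 25 + 15 * (ell * a) ^ 2 + 70 * (ell * a) ^ 4) * (ell * a) * eta

/-- The lower bound for the denominator; `b` is the slope `β`. -/
noncomputable def den (a ell eta b : ℝ) : ℝ :=
  17 / 4 + b * a ^ 2 * (1493 / 100 + 18 * (ell * a) ^ 2 + 44 * (ell * a) ^ 4 +
    (1369 / 100 + 24 * (ell * a) ^ 2 + 130 * (ell * a) ^ 4) * (ell * a) * eta) -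
  1365 / 1000 * a ^ 4

/-- The closing polynomial inequality: `a = √S`, `eta = C / a ^ 3`, `ell = |lam|`,
`th` interpolates between the two generating functions. -/
def BoundFinal : Prop :=
  ∀ a ell eta th : ℝ, 0 ≤ a → a ≤ 1 → 0 ≤ ell → ell ^ 2 ≤ 1 / 8 → -1 ≤ eta → eta ≤ 1 →
    (3 * a ^ 2 - 1) / 2 ≤ eta * a ^ 3 → 0 ≤ th → th ≤ 1 / 8 →
      0 < den a ell eta ((1 - 2 * th) / 3) ∧
      (1 - th) * psi a ell eta ^ 2 / (2 * den a ell eta ((1 - 2 * th) / 3)) + 1 / 100 ≤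
        349 / 100 + 6 / 5 * a ^ 2 + 2 * a ^ 6 + 33 / 2 * min (eta * a ^ 3) 0 -
          81 / 20 * ell ^ 2

end Vale.Agent.P154.Neg3
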