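import Vale.Agent.P154.Neg3.Iface

/-!
Rational description of a deviation by `T` and `χ`, with one cube root `g`.
-/

namespace Vale.Agent.P154.Neg3

/-- `1 + T²`. -/
noncomputable def Dp (T : ℝ) : ℝ := 1 + T ^ 2

/-- `1 - g ^ 3`. -/
noncomputable def yv (T x : ℝ) : ℝ := 3 / 2 * T ^ 2 - x * T ^ 3

/-- `S` in the parameters. -/
noncomputable def Sv (T x : ℝ) : ℝ := T ^ 2 * (8 + 8 * x * T + T ^ 2) / (4 * Dp T ^ 2)

/-- `C` in the parameters. -/
noncomputable def Cv (T x : ℝ) : ℝ := ((1 - yv T x) ^ 2 / Dp T ^ 3 - 1 + 3 * Sv T x) / 2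

/-- `F` in the parameters. -/
noncomputable def Fv (T g : ℝ) : ℝ := 50 + (47 * g ^ 2 - 34 * g - 63) / Dp T

/-- `B` in the parameters. -/
noncomputable def Bv (T g : ℝ) : ℝ :=
  -(103 / 4) + (-47 * g ^ 2 + 51 / 2 * g + 189 / 4) / Dp T

/-- `L3` in the parameters. -/
noncomputable def Lv (T g : ℝ) : ℝ :=
  -(121 / 16) + (-47 * g ^ 2 + 153 / 8 * g + 567 / 16) / Dp T

theorem Dp_pos (T : ℝ) : 0 < Dp T := by unfold Dp; positivity

theorem param2 {u : Fin 3 → ℝ} (hu : Dev u) :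
    ∃ T x g : ℝ, 0 ≤ T ∧ T ≤ 3 / 2 ∧ -(7072 / 10000) ≤ x ∧ x ≤ 7072 / 10000 ∧
      0 ≤ yv T x ∧ yv T x ≤ 1 ∧ 0 ≤ g ∧ g ≤ 1 ∧ g ^ 3 = 1 - yv T x ∧
      S u = Sv T x ∧ C u = Cv T x ∧ F u = Fv T g ∧ B u = Bv T g ∧ L3 u = Lv T g ∧
      tA u = 1 - g ^ 2 / Dp T ∧ tB1 u = 1 - g / Dp T ∧ tB2 u = 3 / 2 * (1 - 1 / Dp T) := by
  obtain ⟨s, q, m, hs, hs0, hq0, hsq, hs3, hm0, hm, hw0, hd, hS, hC⟩ := param hu
  have hspos : 0 < s := by
    rcases hs0.lt_or_eq with h | h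
    · exact h
    · exfalso; rw [← h] at hs3; norm_num at hs3
  obtain ⟨T, hT⟩ : ∃ T, T = q / s := ⟨_, rfl⟩
  have hTq : q = T * s := by rw [hT, div_mul_cancel₀ _ hspos.ne']
  have hT0 : 0 ≤ T := hT ▸ div_nonneg hq0 hs0
  have hsD : s ^ 2 * Dp T = 1 := by
    rw [Dp, mul_add, mul_one, ← mul_pow, mul_comm s T, ← hTq]; linarith
  have hD : Dp T = 1 / s ^ 2 := by field_simp; linarith
  have hT2 : T ≤ 3 / 2 := by
    have : Dp T ≤ 3 := by
      rw [hD, div_le_iff₀ (by positivity)]; linarith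
    rw [Dp] at this; nlinarith
  obtain ⟨x, hx⟩ : ∃ x, x = if T = 0 then (0 : ℝ) else
      (m - s ^ 3 + 3 / 2 * q ^ 2 * s) / q ^ 3 := ⟨_, rfl⟩
  have hmx : m = s ^ 3 * (1 - yv T x) := by
    by_cases hz : T = 0
    · have hqz : q = 0 := by rw [hTq, hz, zero_mul]
      rw [hqz] at hd
      have : (m - s ^ 3) ^ 2 ≤ 0 := by nlinarith
      have : m - s ^ 3 = 0 := by nlinarith
      rw [hz, yv]; linarith
    · have hqz : q ≠ 0 := by rw [hTq]; positivity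
      have e : x * q ^ 3 = m - s ^ 3 + 3 / 2 * q ^ 2 * s := by
        rw [hx, if_neg hz, div_mul_cancel₀ _ (pow_ne_zero _ hqz)]
      rw [hTq] at e
      rw [yv]; linear_combination -e
  have hx2 : x ^ 2 ≤ 1 / 2 := by
    by_cases hz : T = 0
    · rw [hx, if_pos hz]; norm_num
    · have hqz : 0 < q ^ 6 := by
        have : 0 < T := hT0.lt_of_ne (Ne.symm hz)
        have : 0 < q := by rw [hTq]; positivity
        positivity
      rw [hx, if_neg hz, div_pow, div_le_iff₀ (by rw [← pow_mul]; norm_num; exact hqz)]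
      rw [← pow_mul]; norm_num; linarith
  have hs3pos : 0 < s ^ 3 := by positivity
  have hy1 : yv T x ≤ 1 := by
    by_contra h
    have : s ^ 3 * (1 - yv T x) < 0 := mul_neg_of_pos_of_neg hs3pos (by linarith)
    linarith
  have hxlo : -(7072 / 10000) ≤ x := by nlinarith
  have hxhi : x ≤ 7072 / 10000 := by nlinarith
  have hy0 : 0 ≤ yv T x := by
    rw [yv]
    have : x * T ≤ 7072 / 10000 * (3 / 2) :=
      (mul_le_mul_of_nonneg_right hxhi hT0).trans (by nlinarith)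
    nlinarith [mul_nonneg (sq_nonneg T) (by linarith : (0 : ℝ) ≤ 3 / 2 - x * T)]
  obtain ⟨g, hg⟩ : ∃ g, g = wr u / s := ⟨_, rfl⟩
  have hg3 : g ^ 3 = 1 - yv T x := by
    rw [hg, div_pow, ← hm, hmx]; field_simp
  have hg0 : 0 ≤ g := hg ▸ div_nonneg hw0 hs0
  have hg1 : g ≤ 1 := by
    by_contra h
    have : 1 < g ^ 3 := one_lt_pow₀ (lt_of_not_ge h) (by norm_num)
    linarith
  have hw : wr u = g * s := by rw [hg, div_mul_cancel₀ _ hspos.ne']
  have eA : tA u = 1 - g ^ 2 / Dp T := by rw [tA, hw, hD]; field_simp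
  have eB : tB1 u = 1 - g / Dp T := by rw [tB1, hw, ← hs, hD]; field_simp
  have eC : tB2 u = 3 / 2 * (1 - 1 / Dp T) := by rw [tB2, ← hs, hD]; field_simp
  have hSv : S u = Sv T x := by
    rw [hS, Spoly, Sv, hmx, hD, yv]
    have : T ^ 2 = 1 / s ^ 2 - 1 := by rw [← hD, Dp]; ring
    field_simp at this ⊢
    linear_combination (-(80 * s ^ 2 + 4 * (T ^ 2 * s ^ 2 + 1 - s ^ 2))) * this
  refine ⟨T, x, g, hT0, hT2, hxlo, hxhi, hy0, hy1, hg0, hg1, hg3, hSv, ?_, ?_, ?_, ?_, eA, eB, eC⟩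
  · rw [hC, Cpoly, ← hS, hSv, Cv, hmx, hD]
    field_simp
  · rw [F, eA, eB, eC, Fv]; field_simp; ring
  · rw [B, eA, eB, eC, Bv]; field_simp; ring
  · rw [L3, eA, eB, eC, Lv]; field_simp; ring

end Vale.Agent.P154.Neg3
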