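import Vale.Agent.P154.Neg3.Env
import Vale.Agent.P154.Cert.AltCheck

/-!
Integer polynomials in `(T, χ)` behind the bounds, and their values.
-/

namespace Vale.Agent.P154.Neg3

open PolyCheck

def eT : Ex := .v 0
def eX : Ex := .v 1
def pY : Ex := .c 3 * eT ^ 2 - .c 2 * (eX * eT ^ 3)
def pD : Ex := .c 1 + eT ^ 2
def pS : Ex := eT ^ 2 * (.c 8 + .c 8 * (eX * eT) + eT ^ 2)
def pC : Ex := (.c 2 - pY) ^ 2 - .c 4 * pD ^ 3 + .c 3 * (pS * pD)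

/-- Numerator of `ghi`, over 194400. -/
def pHi : Ex :=
  .c 194400 - .c 32400 * pY - .c 5400 * pY ^ 2 - .c 1500 * pY ^ 3 - .c 500 * pY ^ 4

/-- Numerator of `glo`, over 194400. -/
def pLo : Ex := pHi - .c 243 * pY ^ 5

def quadN (c0 c2 c1 c00 K : ℤ) (G : Ex) : Ex :=
  .c (c0 * K ^ 2) * pD + .c c2 * (G * G) + .c (c1 * K) * G + .c (c00 * K ^ 2)

def nF (K : ℤ) (G : Ex) : Ex := quadN 50 47 (-34) (-63) K G
def nB (K : ℤ) (G : Ex) : Ex := quadN (-103) (-188) 102 189 K G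
def nL (K : ℤ) (G : Ex) : Ex := quadN (-121) (-752) 306 567 K G

def K0 : ℤ := 194400

def v1 : Ex :=
  .c (K0 ^ 2) * (.c 800 * (pS * pD ^ 2) + .c 81 * pS ^ 2) - .c 320 * (pD ^ 3 * nF K0 pHi)

def v2 : Ex :=
  .c (K0 ^ 2) * (.c 3404 * (pS * pD ^ 5) + .c 1860 * (pS ^ 2 * pD ^ 3) + .c 1825 * (pS ^ 3 * pD)
    - .c 3136 * (pC * pD ^ 4) - .c 1500 * (pS * pC * pD ^ 2) - .c 1750 * (pS ^ 2 * pC))
    - .c 800 * (pD ^ 6 * nB K0 pLo)

def v3 : Ex :=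
  .c 100 * (pD ^ 6 * nL K0 pHi) + .c (K0 ^ 2) *
    (.c 2738 * (pC * pD ^ 4) + .c 1200 * (pS * pC * pD ^ 2) + .c 1625 * (pS ^ 2 * pC)
    - .c 5972 * (pS * pD ^ 5) - .c 1800 * (pS ^ 2 * pD ^ 3) - .c 1100 * (pS ^ 3 * pD))

def vA : Ex :=
  .c (151 * K0 ^ 2) * pS - .c (400 * K0 ^ 2) * pD ^ 2 + .c 400 * (pD * (pLo * pLo))

def vB : Ex := .c (111 * K0) * pS - .c (400 * K0) * pD ^ 2 + .c 400 * (pD * pLo)

def vC : Ex := .c 26 * pS - .c 150 * (eT ^ 2 * pD)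

/-- Positive when `S > 1/8`. -/
def exS : Ex := .c 1000000 * (.c 2 * pS - pD ^ 2) - .c 1

def q0 : Ex :=
  .c 32000 * (pS * pD ^ 8) + .c 2792 * (pS ^ 2 * pD ^ 6) + .c 240 * (pS ^ 3 * pD ^ 4)
    + .c 25 * pS ^ 5

def u0 (K : ℤ) (G : Ex) : Ex := .c 12800 * (nF K G * pD ^ 9) - .c (K ^ 2) * q0

def u1 (K : ℤ) (G : Ex) : Ex := u0 K G - .c (1650 * K ^ 2) * (pS ^ 2 * pC * pD ^ 3)

/-- `u0` with `F` replaced by its minimum over `g`, times 47. -/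
def uMin0 : Ex := .c 12800 * ((.c 2350 * pD - .c 3250) * pD ^ 9) - .c 47 * q0

def uMin1 : Ex := uMin0 - .c (1650 * 47) * (pS ^ 2 * pC * pD ^ 3)

/-- Positive when `y < a / 100`. -/
def exLo (a : ℤ) : Ex := .c 1000000 * (.c (2 * a) - .c 100 * pY) - .c 1

/-- Positive when `b / 100 < y`. -/
def exHi (b : ℤ) : Ex := .c 1000000 * (.c 100 * pY - .c (2 * b)) - .c 1

def negC : Ex := .c (-1) * pC

/-- Chord numerator: through `(a/100, ga/10000)` and `(b/100, gb/10000)`, over `10000 (b-a)`. -/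
def pChord (a b ga gb : ℤ) : Ex := .c (ga * (b - a) - (gb - ga) * a) + .c (50 * (gb - ga)) * pY

theorem ev_pY (x y : ℝ) : pY.eval (pt [x, y]) = 2 * yv x y := by
  simp [pY, eT, eX, yv]; ring

theorem ev_pD (x y : ℝ) : pD.eval (pt [x, y]) = Dp x := by simp [pD, eT, Dp]

theorem ev_pS (x y : ℝ) : pS.eval (pt [x, y]) = 4 * Dp x ^ 2 * Sv x y := by
  have := (Dp_pos x).ne'
  simp [pS, eT, eX, Sv]; field_simp

theorem ev_pC (x y : ℝ) : pC.eval (pt [x, y]) = 8 * Dp x ^ 3 * Cv x y := by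
  have := (Dp_pos x).ne'
  simp [pC, ev_pY, ev_pD, ev_pS, Cv]; field_simp; ring

theorem ev_pHi (x y : ℝ) : pHi.eval (pt [x, y]) = 194400 * ghi (yv x y) := by
  simp [pHi, ev_pY, ghi]; ring

theorem ev_pLo (x y : ℝ) : pLo.eval (pt [x, y]) = 194400 * glo (yv x y) := by
  simp [pLo, ev_pHi, ev_pY, glo]; ring

theorem ev_nF (K : ℤ) (G : Ex) (x y g : ℝ) (h : G.eval (pt [x, y]) = K * g) :
    (nF K G).eval (pt [x, y]) = K ^ 2 * Dp x * Fv x g := by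
  have := (Dp_pos x).ne'
  simp [nF, quadN, ev_pD, h, Fv]; field_simp; ring

theorem ev_nB (K : ℤ) (G : Ex) (x y g : ℝ) (h : G.eval (pt [x, y]) = K * g) :
    (nB K G).eval (pt [x, y]) = 4 * K ^ 2 * Dp x * Bv x g := by
  have := (Dp_pos x).ne'
  simp [nB, quadN, ev_pD, h, Bv]; field_simp; ring

theorem ev_nL (K : ℤ) (G : Ex) (x y g : ℝ) (h : G.eval (pt [x, y]) = K * g) :
    (nL K G).eval (pt [x, y]) = 16 * K ^ 2 * Dp x * Lv x g := by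
  have := (Dp_pos x).ne'
  simp [nL, quadN, ev_pD, h, Lv]; field_simp; ring

end Vale.Agent.P154.Neg3
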